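import Vale.Agent.P293.Filt

namespace Vale.Agent.P295

open Vale.Agent.P293

open Polynomial AddMonoidAlgebra

abbrev Lam := AddMonoidAlgebra ℂ[X] Wt

structure Data (A : Type*) [CommRing A] [Algebra ℂ A] where
  p : A
  u : A
  x : A
  y : A
  z : A
  V0 : A
  V1 : A
  V2 : A
  j : A →ₐ[ℂ] Lam
  r1 : x * z = y ^ 2 + y - p * u
  r7 : p * V0 = x ^ 3 - y ^ 2 + x ^ 2 * u ^ 2
  r8 : p * V1 = x ^ 2 * (y + 1) - y * z + x * (y + 1) * u ^ 2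
  r9 : p * V2 = (y + 1) ^ 2 * (x + u ^ 2) - z ^ 2
  hgen : Algebra.adjoin ℂ {p, u, x, y, z, V0, V1, V2} = ⊤
  jp : j p = single (wm (-1) 0 0) 1
  ju : j u = single (wm 0 1 0) X
  jx : j x = single (wm 0 0 1) 1
  jy : j y = single (wm 0 1 1) 1

structure Ex where
  m : ℕ
  n : ℕ
  a0 : ℕ
  a1 : ℕ
  a2 : ℕ
  b0 : ℕ
  b1 : ℕ
  b2 : ℕ

def Ex.wt (e : Ex) : Wt :=
  e.m • wm (-1) 0 0 + e.n • wm 0 1 0 + e.a0 • wm 0 0 1 + e.a1 • wm 0 1 1 + e.a2 • wm 0 2 1 +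
    e.b0 • wm 1 2 2 + e.b1 • wm 1 3 2 + e.b2 • wm 1 4 2

lemma Ex.ca_wt (e : Ex) : ca e.wt = (e.b0 + e.b1 + e.b2) - e.m := by
  simp [Ex.wt, -nsmul_eq_mul]; ring

lemma Ex.ch_wt (e : Ex) :
    ch e.wt = e.n + e.a1 + 2 * e.a2 + 2 * e.b0 + 3 * e.b1 + 4 * e.b2 := by
  simp [Ex.wt, -nsmul_eq_mul]; ring

lemma Ex.ci_wt (e : Ex) : ci e.wt = e.a0 + e.a1 + e.a2 + 2 * (e.b0 + e.b1 + e.b2) := by
  simp [Ex.wt, -nsmul_eq_mul]; ring

def Ex.N (e : Ex) : ℕ := e.n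

def Ex.k (e : Ex) : ℕ := e.b0 + e.b1 + e.b2

noncomputable def Ex.tc (e : Ex) : ℂ[X] := X ^ e.N * (X ^ 2 - 1) ^ e.k

def Ex.Std (e : Ex) : Prop :=
  (e.a0 = 0 ∨ e.a2 = 0) ∧ (e.a0 = 0 ∨ e.b1 = 0) ∧ (e.a0 = 0 ∨ e.b2 = 0) ∧ (e.a1 = 0 ∨ e.b1 = 0) ∧
    (e.a1 = 0 ∨ e.b2 = 0) ∧ (e.b0 = 0 ∨ e.b2 = 0) ∧ (e.m = 0 ∨ e.b0 + e.b1 + e.b2 = 0)

def Ex.W (e : Ex) : ℕ := e.a0 + e.a1 + 2 * e.a2 + 4 * e.b0 + 6 * e.b1 + 9 * e.b2

lemma Ex.Std.k_eq {e e' : Ex} (h : e.Std) (h' : e'.Std) (hw : e.wt = e'.wt) : e.k = e'.k := by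
  have h1 := congrArg ca hw
  rw [Ex.ca_wt, Ex.ca_wt] at h1
  have := h.2.2.2.2.2.2
  have := h'.2.2.2.2.2.2
  unfold Ex.k
  omega

lemma Ex.Std.closed {e : Ex} (h : e.Std) :
    e.a0 = (e.a0 + e.a1 + e.a2) - (e.a1 + 2 * e.a2 + e.b1 + 2 * e.b2) ∧
    e.a2 = min (e.a0 + e.a1 + e.a2)
      ((e.a1 + 2 * e.a2 + e.b1 + 2 * e.b2) - (e.a0 + e.a1 + e.a2)) ∧
    e.b2 = (e.a1 + 2 * e.a2 + e.b1 + 2 * e.b2) -
      (2 * (e.a0 + e.a1 + e.a2) + (e.b0 + e.b1 + e.b2)) := by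
  obtain ⟨h1, h2, h3, h4, h5, h6, -⟩ := h
  omega

lemma Ex.Std.eq {e e' : Ex} (h : e.Std) (h' : e'.Std) (hw : e.wt = e'.wt) (hN : e.N = e'.N) :
    e = e' := by
  have hk := h.k_eq h' hw
  have h1 := congrArg ca hw
  have h2 := congrArg ch hw
  have h3 := congrArg ci hw
  rw [Ex.ca_wt, Ex.ca_wt] at h1
  rw [Ex.ch_wt, Ex.ch_wt] at h2
  rw [Ex.ci_wt, Ex.ci_wt] at h3
  unfold Ex.k at hk
  unfold Ex.N at hN
  obtain ⟨c1, c2, c3⟩ := h.closed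
  obtain ⟨d1, d2, d3⟩ := h'.closed
  have i1 : e.a0 + e.a1 + e.a2 = e'.a0 + e'.a1 + e'.a2 := by omega
  have i2 : e.n = e'.n := by omega
  have i3 : e.a1 + 2 * e.a2 + e.b1 + 2 * e.b2 = e'.a1 + 2 * e'.a2 + e'.b1 + 2 * e'.b2 := by omega
  rw [i1, i3] at c1 c2
  rw [i1, i3, hk] at c3
  have i4 : e.a0 = e'.a0 := c1.trans d1.symm
  have i5 : e.a2 = e'.a2 := c2.trans d2.symm
  have i6 : e.b2 = e'.b2 := c3.trans d3.symm
  clear c1 c2 c3 d1 d2 d3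
  cases e
  cases e'
  simp only [Ex.mk.injEq] at *
  omega

namespace Data

variable {A : Type*} [CommRing A] [Algebra ℂ A] (d : Data A)

def mon (e : Ex) : A :=
  d.p ^ e.m * d.u ^ e.n * d.x ^ e.a0 * d.y ^ e.a1 * d.z ^ e.a2 * d.V0 ^ e.b0 * d.V1 ^ e.b1 *
    d.V2 ^ e.b2

lemma mon_ind (Pr : A → Wt → Prop) (h1 : Pr 1 0)
    (hmul : ∀ f g α β, Pr f α → Pr g β → Pr (f * g) (α + β))
    (hp : Pr d.p (wm (-1) 0 0)) (hu : Pr d.u (wm 0 1 0)) (hx : Pr d.x (wm 0 0 1))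
    (hy : Pr d.y (wm 0 1 1)) (hz : Pr d.z (wm 0 2 1)) (h0 : Pr d.V0 (wm 1 2 2))
    (hV1 : Pr d.V1 (wm 1 3 2)) (hV2 : Pr d.V2 (wm 1 4 2)) (e : Ex) : Pr (d.mon e) e.wt := by
  have hpow : ∀ f α (n : ℕ), Pr f α → Pr (f ^ n) (n • α) := by
    intro f α n h
    induction n with
    | zero => simpa using h1
    | succ n ih => rw [pow_succ, succ_nsmul]; exact hmul _ _ _ _ ih h
  unfold mon Ex.wt
  repeat' apply hmul
  all_goals (apply hpow; assumption)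

lemma top_p : Top (d.j d.p) (wm (-1) 0 0) 1 := d.jp ▸ Top.single _ _
lemma top_u : Top (d.j d.u) (wm 0 1 0) X := d.ju ▸ Top.single _ _
lemma top_x : Top (d.j d.x) (wm 0 0 1) 1 := d.jx ▸ Top.single _ _
lemma top_y : Top (d.j d.y) (wm 0 1 1) 1 := d.jy ▸ Top.single _ _

lemma top_of_mul {F G : Lam} {α β γ : Wt} {c : ℂ[X]} (h : Top (single α 1 * F) γ c)
    (hG : F = G) (hβ : γ = α + β) : Top G β c := by
  have := (Top.single (-α) (1 : ℂ[X])).mul h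
  refine this.congr ?_ (by rw [hβ]; abel) (one_mul _)
  rw [← mul_assoc, single_mul_single, neg_add_cancel, one_mul, ← hG, ← one_def, one_mul]

lemma top_z : Top (d.j d.z) (wm 0 2 1) 1 := by
  have h : Top (d.j (d.y ^ 2 + d.y - d.p * d.u)) (wm 0 2 2) 1 := by
    simp only [map_add, map_mul, map_pow, map_sub]
    have t1 : Top (d.j d.y ^ 2) (wm 0 2 2) 1 :=
      (d.top_y.pow 2).congr rfl (by decide) (by ring)
    have t2 := d.top_y.lower (β := wm 0 2 2) (by decide)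
    have t3 := (d.top_p.mul d.top_u).lower (β := wm 0 2 2) (by decide)
    exact ((t1.add t2).add t3.neg).congr (by ring) rfl (by ring)
  rw [← d.r1, map_mul, d.jx] at h
  exact top_of_mul h rfl (by decide)

lemma top_V0 : Top (d.j d.V0) (wm 1 2 2) (X ^ 2 - 1) := by
  have h : Top (d.j (d.x ^ 3 - d.y ^ 2 + d.x ^ 2 * d.u ^ 2)) (wm 0 2 2) (X ^ 2 - 1) := by
    simp only [map_sub, map_mul, map_pow, map_add]
    have t1 : Top (d.j d.y ^ 2) (wm 0 2 2) 1 :=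
      (d.top_y.pow 2).congr rfl (by decide) (by ring)
    have t2 := (d.top_x.pow 3).lower (β := wm 0 2 2) (by decide)
    have t3 : Top (d.j d.x ^ 2 * d.j d.u ^ 2) (wm 0 2 2) (X ^ 2) :=
      ((d.top_x.pow 2).mul (d.top_u.pow 2)).congr rfl (by decide) (by ring)
    exact ((t2.add t1.neg).add t3).congr (by ring) rfl (by ring)
  rw [← d.r7, map_mul, d.jp] at h
  exact top_of_mul h rfl (by decide)

lemma top_V1 : Top (d.j d.V1) (wm 1 3 2) (X ^ 2 - 1) := by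
  have h : Top (d.j (d.x ^ 2 * (d.y + 1) - d.y * d.z + d.x * (d.y + 1) * d.u ^ 2)) (wm 0 3 2)
      (X ^ 2 - 1) := by
    simp only [map_sub, map_mul, map_pow, map_add, map_one]
    have t0 : Top (d.j d.y + 1) (wm 0 1 1) 1 := by
      simpa using d.top_y.add (Top.one.lower (by decide))
    have t1 := ((d.top_x.pow 2).mul t0).lower (β := wm 0 3 2) (by decide)
    have t2 : Top (d.j d.y * d.j d.z) (wm 0 3 2) 1 :=
      (d.top_y.mul d.top_z).congr rfl (by decide) (by ring)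
    have t3 : Top (d.j d.x * (d.j d.y + 1) * d.j d.u ^ 2) (wm 0 3 2) (X ^ 2) :=
      ((d.top_x.mul t0).mul (d.top_u.pow 2)).congr rfl (by decide) (by ring)
    exact ((t1.add t2.neg).add t3).congr (by ring) rfl (by ring)
  rw [← d.r8, map_mul, d.jp] at h
  exact top_of_mul h rfl (by decide)

lemma top_V2 : Top (d.j d.V2) (wm 1 4 2) (X ^ 2 - 1) := by
  have h : Top (d.j ((d.y + 1) ^ 2 * (d.x + d.u ^ 2) - d.z ^ 2)) (wm 0 4 2) (X ^ 2 - 1) := by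
    simp only [map_sub, map_mul, map_pow, map_add, map_one]
    have t0 : Top (d.j d.y + 1) (wm 0 1 1) 1 := by
      simpa using d.top_y.add (Top.one.lower (by decide))
    have t1 := ((t0.pow 2).mul d.top_x).lower (β := wm 0 4 2) (by decide)
    have t2 : Top (d.j d.z ^ 2) (wm 0 4 2) 1 :=
      (d.top_z.pow 2).congr rfl (by decide) (by ring)
    have t3 : Top ((d.j d.y + 1) ^ 2 * d.j d.u ^ 2) (wm 0 4 2) (X ^ 2) :=
      ((t0.pow 2).mul (d.top_u.pow 2)).congr rfl (by decide) (by ring)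
    exact ((t1.add t2.neg).add t3).congr (by ring) rfl (by ring)
  rw [← d.r9, map_mul, d.jp] at h
  exact top_of_mul h rfl (by decide)

lemma top_mon (e : Ex) : Top (d.j (d.mon e)) e.wt e.tc := by
  unfold mon Ex.wt
  simp only [map_mul, map_pow]
  refine (((((((((d.top_p.pow _).mul (d.top_u.pow _)).mul (d.top_x.pow _)).mul
    (d.top_y.pow _)).mul (d.top_z.pow _)).mul (d.top_V0.pow _)).mul (d.top_V1.pow _)).mul
    (d.top_V2.pow _))).congr rfl rfl ?_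
  rw [Ex.tc, Ex.N, Ex.k]
  generalize (X ^ 2 - 1 : ℂ[X]) = t
  ring

lemma p_ne : d.p ≠ 0 := by
  intro h
  have := d.top_p.2
  rw [h] at this
  simp at this

end Data

end Vale.Agent.P295
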