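import Vale.Agent.P295.Phi4

namespace Vale.Agent.P295

open Vale.Agent.P293 Polynomial AddMonoidAlgebra

theorem final4 {L : Type*} [Field L] [CharZero L] {x y z P U N0 N1 N2 : L[X]}
    (hx : x ≠ 0) (hy : y ≠ 0) (hP : IsUnit P) (hU : U ≠ 0) (hN0 : N0 ≠ 0)
    (r1 : x * z = y ^ 2) (r7 : P * N0 + y ^ 2 - x ^ 2 * U ^ 2 = 0)
    (r8 : P * N1 + y * z - x * y * U ^ 2 = 0) (r9 : P * N2 + z ^ 2 - y ^ 2 * U ^ 2 = 0)
    (hN : ∀ π : L[X], Prime π → π ∣ N0 → π ∣ N1 → π ∣ N2 → False) :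
    x.natDegree = 0 ∧ y.natDegree = 0 ∧ U.natDegree = 0 := by
  classical
  have hP0 := hP.ne_zero
  have r2 : x * N1 = y * N0 := mul_left_cancel₀ hP0 (by linear_combination x * r8 - y * r7 - y * r1)
  have r3 : x * N2 = y * N1 := mul_left_cancel₀ hP0 (by linear_combination x * r9 - y * r8 - z * r1)
  have hxz : IsCoprime x z := by
    refine isCoprime_of_prime_dvd (fun h => hx h.1) fun π hπ h1 h2 => ?_
    have h3 : π ∣ y := hπ.dvd_of_dvd_pow (r1 ▸ h1.mul_right z)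
    refine hN π hπ (hP.dvd_mul_left.mp ?_) (hP.dvd_mul_left.mp ?_) (hP.dvd_mul_left.mp ?_)
    · have : P * N0 = y * (-y) + x * (x * U ^ 2) := by linear_combination r7
      rw [this]; exact (h3.mul_right _).add (h1.mul_right _)
    · have : P * N1 = y * (-z + x * U ^ 2) := by linear_combination r8
      rw [this]; exact h3.mul_right _
    · have : P * N2 = z * (-z) + y * (y * U ^ 2) := by linear_combination r9
      rw [this]; exact (h2.mul_right _).add (h3.mul_right _)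
  obtain ⟨a, c, ha, hc, hac⟩ := extract_gcd x y
  rw [gcd_isUnit_iff] at hac
  set g := gcd x y
  have g0 : g ≠ 0 := fun h => hx (by rw [ha, h, zero_mul])
  have a0 : a ≠ 0 := fun h => hx (by rw [ha, h, mul_zero])
  have c0 : c ≠ 0 := fun h => hy (by rw [hc, h, mul_zero])
  have e1 : a * z = g * c ^ 2 := mul_left_cancel₀ g0 (by
    rw [ha, hc] at r1; linear_combination r1)
  obtain ⟨τ, hτ⟩ : a ∣ g := hac.pow_right.dvd_of_dvd_mul_right ⟨z, e1.symm⟩
  have ex : x = τ * a ^ 2 := by rw [ha, hτ]; ring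
  have ey : y = τ * a * c := by rw [hc, hτ]; ring
  have ez : z = τ * c ^ 2 := mul_left_cancel₀ a0 (by rw [e1, hτ]; ring)
  have uτ : IsUnit τ := hxz.isUnit_of_dvd' ⟨_, ex⟩ ⟨_, ez⟩
  have e2 : a * N1 = c * N0 := mul_left_cancel₀ g0 (by
    rw [ha, hc] at r2; linear_combination r2)
  have e3 : a * N2 = c * N1 := mul_left_cancel₀ g0 (by
    rw [ha, hc] at r3; linear_combination r3)
  obtain ⟨n1, hn1⟩ : a ∣ N0 := hac.dvd_of_dvd_mul_left ⟨N1, e2.symm⟩
  have e4 : N1 = c * n1 := mul_left_cancel₀ a0 (by rw [e2, hn1]; ring)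
  obtain ⟨ν, hν⟩ : a ∣ n1 := hac.pow_right.dvd_of_dvd_mul_left
    (⟨N2, by rw [e3, e4]; ring⟩ : a ∣ c ^ 2 * n1)
  have eN0 : N0 = ν * a ^ 2 := by rw [hn1, hν]; ring
  have eN1 : N1 = ν * a * c := by rw [e4, hν]; ring
  have eN2 : N2 = ν * c ^ 2 := mul_left_cancel₀ a0 (by rw [e3, eN1]; ring)
  have ν0 : ν ≠ 0 := fun h => hN0 (by rw [eN0, h, zero_mul])
  have uν : IsUnit ν := by
    rw [← isCoprime_self]
    refine isCoprime_of_prime_dvd (fun h => ν0 h.1) fun π hπ h1 _ => ?_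
    exact hN π hπ (eN0 ▸ h1.mul_right _) (by rw [eN1, mul_assoc]; exact h1.mul_right _)
      (eN2 ▸ h1.mul_right _)
  have h : τ ^ 2 * (C 1 * c ^ 2 + C (-1) * (a * U) ^ 2) = -(P * ν) := by
    apply mul_left_cancel₀ (pow_ne_zero 2 a0)
    rw [ex, ey, eN0] at r7
    rw [map_neg, map_one]
    linear_combination r7
  obtain ⟨k1, k3⟩ := quad_const one_ne_zero (neg_ne_zero.mpr one_ne_zero)
    (isUnit_of_mul_isUnit_right (h ▸ (hP.mul uν).neg))
  rw [natDegree_mul a0 hU] at k3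
  have k4 : τ.natDegree = 0 := (unit_iff uτ.ne_zero).mp uτ
  refine ⟨?_, ?_, by omega⟩
  · rw [ex, natDegree_mul uτ.ne_zero (pow_ne_zero _ a0), natDegree_pow]; omega
  · rw [ey, natDegree_mul (mul_ne_zero uτ.ne_zero a0) c0, natDegree_mul uτ.ne_zero a0]; omega

variable {A : Type*} [CommRing A] [Algebra ℂ A] [IsDomain A]

namespace Flow

variable (d : Flow A)

/-- the four basic flowed forms are constant -/
def AllConst : Prop :=
  derivative d.X' = 0 ∧ derivative d.Y' = 0 ∧ derivative d.P' = 0 ∧ derivative d.U' = 0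

theorem allConst (hp : d.D d.p = 0) {f0 : A} (hf0 : d.D f0 = 0) {γ : Wt}
    (h1 : (d.j f0).coeff γ ≠ 0) (h2 : 0 < ca γ) : d.AllConst := by
  obtain ⟨γ0, l0, n0⟩ := exists_top (F := d.j f0) (fun h0 => h1 (by rw [h0]; simp))
  have hγ0 : 0 < ca γ0 := lt_of_lt_of_le h2 (Wt.ca_le (l0.le_of_ne h1))
  have u0 : IsUnit (d.Φ γ0 f0) := by
    rw [unit_iff (d.Φ_ne n0), ← derivative_eq_zero, Φ_deriv, hf0, Φ_zero]
  have hP : derivative d.P' = 0 := by rw [P', Φ_deriv, hp, Φ_zero]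
  have uP : IsUnit d.P' := by rw [unit_iff d.P'_ne, ← derivative_eq_zero, hP]
  have dv : ∀ {π q : LL[X]} {m : ℕ}, π ∣ q → m ≠ 0 → π ∣ q ^ m :=
    fun hq hm => hq.trans (dvd_pow_self _ hm)
  have := final4 d.X'_ne d.Y'_ne uP d.U'_ne d.N0_ne d.R1 d.R7 d.R8 d.R9 ?_
  · simp only [← derivative_eq_zero] at this
    exact ⟨this.1, this.2.1, hP, this.2.2⟩
  · intro π hπ p0 p1 p2
    refine hπ.not_isUnit (isUnit_of_dvd_unit (d.dvd_Φ l0 fun e he => ?_) u0)
    rw [Φ_mon]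
    rw [← he, Ex.ca_wt] at hγ0
    by_cases b0 : e.b0 = 0
    · by_cases b1 : e.b1 = 0
      · exact (dv p2 (by omega)).mul_left _
      · exact ((dv p1 b1).mul_left _).mul_right _
    · exact (((dv p0 b0).mul_left _).mul_right _).mul_right _

lemma AllConst.all (h : d.AllConst) : derivative d.Z' = 0 ∧ derivative d.N0 = 0 ∧
    derivative d.N1 = 0 ∧ derivative d.N2 = 0 := by
  obtain ⟨hX, hY, hP, hU⟩ := h
  have hZ : derivative d.Z' = 0 := by
    have := congrArg derivative d.R1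
    simp [derivative_pow, hX, hY, d.X'_ne] at this
    exact derivative_eq_zero.mpr this
  refine ⟨hZ, ?_, ?_, ?_⟩
  · have := congrArg derivative d.R7
    simp [derivative_pow, hX, hY, hP, hU, d.P'_ne] at this
    exact derivative_eq_zero.mpr this
  · have := congrArg derivative d.R8
    simp [derivative_pow, hX, hY, hP, hU, hZ, d.P'_ne] at this
    exact derivative_eq_zero.mpr this
  · have := congrArg derivative d.R9
    simp [derivative_pow, hY, hP, hU, hZ, d.P'_ne] at this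
    exact derivative_eq_zero.mpr this

end Flow

theorem Data.core (d : Data A) (D : Derivation ℂ A A) (E : A →ₐ[ℂ] A[X])
    (h0 : ∀ f, (E f).coeff 0 = f) (hD : ∀ f, derivative (E f) = E (D f))
    {t : A} (ht : D t = 1) (hp : D d.p = 0) {f0 : A} (hf0 : D f0 = 0) {γ : Wt} (h1 : (d.j f0).coeff γ ≠ 0)
    (h2 : 0 < ca γ) : False := by
  classical
  let gen : Fin 8 → A := ![d.p, d.u, d.x, d.y, d.z, d.V0, d.V1, d.V2]
  let gw : Fin 8 → Wt := ![wm (-1) 0 0, wm 0 1 0, wm 0 0 1, wm 0 1 1, wm 0 2 1, wm 1 2 2,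
    wm 1 3 2, wm 1 4 2]
  have hne : ∃ i, d.j (D (gen i)) ≠ 0 := by
    by_contra hc
    push Not at hc
    have hm : ∀ e, d.j (D (d.mon e)) = 0 := fun e =>
      d.mon_ind (fun f _ => d.j (D f) = 0) (by simp)
        (fun f g _ _ h1 h2 => by simp [Derivation.leibniz, h1, h2])
        (hc 0) (hc 1) (hc 2) (hc 3) (hc 4) (hc 5) (hc 6) (hc 7) e
    have hall : ∀ f, d.j (D f) = 0 := by
      intro f
      have hf : f ∈ Submodule.span ℂ (Set.range d.mon) := by rw [d.span_mon]; trivial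
      induction hf using Submodule.span_induction with
      | mem g hg => obtain ⟨e, rfl⟩ := hg; exact hm e
      | zero => simp
      | add f g _ _ hf hg => simp [hf, hg]
      | smul c f _ hf => simp [hf]
    have := hall t
    rw [ht, map_one] at this
    exact one_ne_zero this
  have hδ : ∀ i, ∃ δ, d.j (D (gen i)) ≠ 0 →
      Le (d.j (D (gen i))) δ ∧ (d.j (D (gen i))).coeff δ ≠ 0 := by
    intro i
    by_cases h : d.j (D (gen i)) = 0
    · exact ⟨0, fun h' => absurd h h'⟩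
    · obtain ⟨δ, hδ⟩ := exists_top h
      exact ⟨δ, fun _ => hδ⟩
  choose δ hδ using hδ
  obtain ⟨i0, hi0, hmax⟩ := (Finset.univ.filter fun i => d.j (D (gen i)) ≠ 0).exists_max_image
    (fun i => δ i - gw i) (by obtain ⟨i, hi⟩ := hne; exact ⟨i, by simpa using hi⟩)
  have hle : ∀ i, Le (d.j (D (gen i))) (gw i + (δ i0 - gw i0)) := by
    intro i
    by_cases h : d.j (D (gen i)) = 0
    · rw [h]; exact Le.zero _
    · refine (hδ i h).1.mono ?_
      have := hmax i (by simpa using h)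
      rwa [sub_le_iff_le_add'] at this
  let fl : Flow A := ⟨d, D, E, h0, hD, δ i0 - gw i0, hle 0, hle 1, hle 2, hle 3, hle 4, hle 5,
    hle 6, hle 7⟩
  have hc := fl.allConst hp hf0 h1 h2
  obtain ⟨hZ, hN0, hN1, hN2⟩ := hc.all
  obtain ⟨hX, hY, hP, hU⟩ := hc
  have hall : ∀ i, derivative (fl.Φ (gw i) (gen i)) = 0 := by
    intro i
    fin_cases i
    exacts [hP, hU, hX, hY, hZ, hN0, hN1, hN2]
  have := hall i0
  rw [Flow.Φ_deriv] at this
  refine fl.Φ_ne ?_ this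
  have h3 := (hδ i0 (by simpa using hi0)).2
  have h4 : gw i0 + fl.ε = δ i0 := by change gw i0 + (δ i0 - gw i0) = δ i0; abel
  rw [h4]; exact h3

end Vale.Agent.P295
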