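import Vale.Agent.P295.Core4

namespace Vale.Agent.P295

open Vale.Agent.P293

open AddMonoidAlgebra

section generic

variable {R : Type*} [CommRing R]

def xx (p s u F : R) : R := s ^ 2 - u ^ 2 + p * F

def HH (p s u F J : R) : R :=
  xx p s u F ^ 2 * F - (1 + 2 * s * xx p s u F) * J - p * J ^ 2 + u

def sU (p u w : R) : R := u + p * w
def sE (p u w : R) : R := w * (sU p u w + u)
def sS (p s u F w : R) : R := s - p * xx p s u F * sE p u w
def sF (p s u F w : R) : R := F + xx p s u F * sE p u w * (sS p s u F w + s) + sE p u w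
def sJ (p s u F J w : R) : R := J + xx p s u F ^ 2 * sE p u w

lemma xx_step (p s u F w : R) :
    xx p (sS p s u F w) (sU p u w) (sF p s u F w) = xx p s u F := by
  have h : sU p u w ^ 2 = u ^ 2 + p * sE p u w := by unfold sE sU; ring
  have hx : xx p s u F = s ^ 2 - u ^ 2 + p * F := rfl
  rw [xx, h, sF, sS]
  linear_combination -hx

lemma sU_inv (p u w : R) : sU p (sU p u w) (-w) = u := by unfold sU; ring

lemma sE_inv (p u w : R) : sE p (sU p u w) (-w) = -sE p u w := by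
  rw [sE, sU_inv, sE]; ring

lemma sS_inv (p s u F w : R) : sS p (sS p s u F w) (sU p u w) (sF p s u F w) (-w) = s := by
  rw [sS, xx_step, sE_inv, sS]; ring

lemma sF_inv (p s u F w : R) : sF p (sS p s u F w) (sU p u w) (sF p s u F w) (-w) = F := by
  rw [sF, xx_step, sE_inv, sS_inv, sF]; ring

lemma sJ_inv (p s u F J w : R) :
    sJ p (sS p s u F w) (sU p u w) (sF p s u F w) (sJ p s u F J w) (-w) = J := by
  rw [sJ, xx_step, sE_inv, sJ]; ring

lemma HH_step (p s u F J w : R) :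
    HH p (sS p s u F w) (sU p u w) (sF p s u F w) (sJ p s u F J w) = HH p s u F J + p * w := by
  rw [HH, xx_step, HH, sF, sJ, sS, sU]; ring

def GG (p s u F J : R) : R := 2 * (s ^ 2 - u ^ 2) * F ^ 2 + p * F ^ 3 - 2 * s * F * J - J ^ 2
def bF (p s u M w : R) : R := 4 * s ^ 2 * (-u - p * w) + (1 + 2 * s * (s ^ 2 - u ^ 2)) * M
def bJ (p s u M w : R) : R :=
  -(1 - 2 * s * (s ^ 2 - u ^ 2)) * (-u - p * w) + (s ^ 2 - u ^ 2) ^ 2 * M
def bW (p s u M w : R) : R := w - GG p s u (bF p s u M w) (bJ p s u M w)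
def bM (s u F J : R) : R := (1 - 2 * s * (s ^ 2 - u ^ 2)) * F + 4 * s ^ 2 * J

lemma HH_eq (p s u F J : R) : HH p s u F J =
    (s ^ 2 - u ^ 2) ^ 2 * F - (1 + 2 * s * (s ^ 2 - u ^ 2)) * J + u + p * GG p s u F J := by
  unfold HH GG xx; ring

lemma HH_b (p s u M w : R) :
    HH p s u (bF p s u M w) (bJ p s u M w) + p * bW p s u M w = 0 := by
  rw [HH_eq, bW]
  generalize GG p s u (bF p s u M w) (bJ p s u M w) = g
  unfold bF bJ
  generalize s ^ 2 - u ^ 2 = x0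
  ring

lemma bM_b (p s u M w : R) : bM s u (bF p s u M w) (bJ p s u M w) = M := by
  unfold bM bF bJ
  generalize s ^ 2 - u ^ 2 = x0
  ring

lemma bF_inv {p s u F J w : R} (h : HH p s u F J + p * w = 0) :
    bF p s u (bM s u F J) (w + GG p s u F J) = F := by
  rw [HH_eq] at h
  unfold bM bF
  generalize s ^ 2 - u ^ 2 = x0 at h ⊢
  linear_combination (-4 * s ^ 2) * h

lemma bJ_inv {p s u F J w : R} (h : HH p s u F J + p * w = 0) :
    bJ p s u (bM s u F J) (w + GG p s u F J) = J := by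
  rw [HH_eq] at h
  unfold bM bJ
  generalize s ^ 2 - u ^ 2 = x0 at h ⊢
  linear_combination (1 - 2 * s * x0) * h

lemma bW_inv {p s u F J w : R} (h : HH p s u F J + p * w = 0) :
    bW p s u (bM s u F J) (w + GG p s u F J) = w := by
  rw [bW, bF_inv h, bJ_inv h]; ring

variable {S T : Type*} [CommRing S] [FunLike T R S] [RingHomClass T R S] (φ : T)

lemma map_xx (p s u F : R) : φ (xx p s u F) = xx (φ p) (φ s) (φ u) (φ F) := by simp [xx]
lemma map_HH (p s u F J : R) : φ (HH p s u F J) = HH (φ p) (φ s) (φ u) (φ F) (φ J) := by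
  simp [HH, map_xx, map_ofNat]
lemma map_sU (p u w : R) : φ (sU p u w) = sU (φ p) (φ u) (φ w) := by simp [sU]
lemma map_sE (p u w : R) : φ (sE p u w) = sE (φ p) (φ u) (φ w) := by simp [sE, map_sU]
lemma map_sS (p s u F w : R) : φ (sS p s u F w) = sS (φ p) (φ s) (φ u) (φ F) (φ w) := by
  simp [sS, map_xx, map_sE]
lemma map_sF (p s u F w : R) : φ (sF p s u F w) = sF (φ p) (φ s) (φ u) (φ F) (φ w) := by
  simp [sF, map_xx, map_sE, map_sS]
lemma map_sJ (p s u F J w : R) :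
    φ (sJ p s u F J w) = sJ (φ p) (φ s) (φ u) (φ F) (φ J) (φ w) := by
  simp [sJ, map_xx, map_sE]
lemma map_GG (p s u F J : R) : φ (GG p s u F J) = GG (φ p) (φ s) (φ u) (φ F) (φ J) := by
  simp [GG, map_ofNat]
lemma map_bF (p s u M w : R) : φ (bF p s u M w) = bF (φ p) (φ s) (φ u) (φ M) (φ w) := by
  simp [bF, map_ofNat]
lemma map_bJ (p s u M w : R) : φ (bJ p s u M w) = bJ (φ p) (φ s) (φ u) (φ M) (φ w) := by
  simp [bJ, map_ofNat]
lemma map_bW (p s u M w : R) : φ (bW p s u M w) = bW (φ p) (φ s) (φ u) (φ M) (φ w) := by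
  simp [bW, map_GG, map_bF, map_bJ]
lemma map_bM (s u F J : R) : φ (bM s u F J) = bM (φ s) (φ u) (φ F) (φ J) := by
  simp [bM, map_ofNat]

end generic

open MvPolynomial

abbrev P5 := MvPolynomial (Fin 5) ℂ

noncomputable def H5 : P5 := HH (X 0) (X 1) (X 2) (X 3) (X 4)

def AA : Type := P5 ⧸ Ideal.span {H5}

noncomputable instance : CommRing AA := inferInstanceAs (CommRing (P5 ⧸ Ideal.span {H5}))
noncomputable instance : Algebra ℂ AA := inferInstanceAs (Algebra ℂ (P5 ⧸ Ideal.span {H5}))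

noncomputable def mkA : P5 →ₐ[ℂ] AA := Ideal.Quotient.mkₐ ℂ (Ideal.span {H5})

lemma mkA_surj : Function.Surjective mkA := Ideal.Quotient.mkₐ_surjective ℂ _

noncomputable def g (i : Fin 5) : AA := mkA (X i)

lemma HH_g : HH (g 0) (g 1) (g 2) (g 3) (g 4) = 0 := by
  unfold g
  rw [← map_HH]
  exact Ideal.Quotient.eq_zero_iff_mem.mpr (Ideal.mem_span_singleton_self _)

noncomputable def liftA {R : Type*} [CommRing R] [Algebra ℂ R] (v : Fin 5 → R)
    (h : HH (v 0) (v 1) (v 2) (v 3) (v 4) = 0) : AA →ₐ[ℂ] R :=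
  Ideal.Quotient.liftₐ _ (aeval v) (by
    intro a ha
    obtain ⟨b, rfl⟩ := Ideal.mem_span_singleton'.mp ha
    rw [map_mul, H5, map_HH]
    simp [h])

lemma liftA_g {R : Type*} [CommRing R] [Algebra ℂ R] (v : Fin 5 → R)
    (h : HH (v 0) (v 1) (v 2) (v 3) (v 4) = 0) (i : Fin 5) : liftA v h (g i) = v i := by
  have : liftA v h (g i) = aeval v (X i : P5) := rfl
  rw [this, aeval_X]

lemma AA_ext {R : Type*} [CommRing R] [Algebra ℂ R] {φ ψ : AA →ₐ[ℂ] R}
    (h : ∀ i, φ (g i) = ψ (g i)) : φ = ψ := by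
  have : φ.comp mkA = ψ.comp mkA := by
    ext i : 1
    exact h i
  ext a
  obtain ⟨b, rfl⟩ := mkA_surj a
  exact DFunLike.congr_fun this b

noncomputable def rho : Polynomial AA →ₐ[ℂ] P5 :=
  Polynomial.aevalTower
    (liftA ![X 0,
      sS (X 0) (X 1) (X 2) (bF (X 0) (X 1) (X 2) (X 3) (X 4)) (bW (X 0) (X 1) (X 2) (X 3) (X 4)),
      sU (X 0) (X 2) (bW (X 0) (X 1) (X 2) (X 3) (X 4)),
      sF (X 0) (X 1) (X 2) (bF (X 0) (X 1) (X 2) (X 3) (X 4)) (bW (X 0) (X 1) (X 2) (X 3) (X 4)),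
      sJ (X 0) (X 1) (X 2) (bF (X 0) (X 1) (X 2) (X 3) (X 4)) (bJ (X 0) (X 1) (X 2) (X 3) (X 4))
        (bW (X 0) (X 1) (X 2) (X 3) (X 4))]
      (by
        simp only [Matrix.cons_val]
        rw [HH_step, HH_b]))
    (bW (X 0) (X 1) (X 2) (X 3) (X 4))

noncomputable def cg (i : Fin 5) : Polynomial AA := Polynomial.C (g i)

noncomputable def tS : Polynomial AA := sS (cg 0) (cg 1) (cg 2) (cg 3) (-Polynomial.X)
noncomputable def tU : Polynomial AA := sU (cg 0) (cg 2) (-Polynomial.X)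
noncomputable def tF : Polynomial AA := sF (cg 0) (cg 1) (cg 2) (cg 3) (-Polynomial.X)
noncomputable def tJ : Polynomial AA := sJ (cg 0) (cg 1) (cg 2) (cg 3) (cg 4) (-Polynomial.X)

noncomputable def tau : P5 →ₐ[ℂ] Polynomial AA :=
  aeval ![cg 0, tS, tU, bM tS tU tF tJ, Polynomial.X + GG (cg 0) tS tU tF tJ]

lemma HH_t : HH (cg 0) tS tU tF tJ + cg 0 * Polynomial.X = 0 := by
  unfold tS tU tF tJ
  rw [HH_step]
  unfold cg
  rw [← map_HH, HH_g]
  simp

lemma rho_cg0 : rho (cg 0) = X 0 := by simp [rho, cg, liftA_g]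
lemma rho_cg1 : rho (cg 1) =
    sS (X 0) (X 1) (X 2) (bF (X 0) (X 1) (X 2) (X 3) (X 4)) (bW (X 0) (X 1) (X 2) (X 3) (X 4)) := by
  simp [rho, cg, liftA_g]
lemma rho_cg2 : rho (cg 2) = sU (X 0) (X 2) (bW (X 0) (X 1) (X 2) (X 3) (X 4)) := by
  simp [rho, cg, liftA_g]
lemma rho_cg3 : rho (cg 3) =
    sF (X 0) (X 1) (X 2) (bF (X 0) (X 1) (X 2) (X 3) (X 4)) (bW (X 0) (X 1) (X 2) (X 3) (X 4)) := by
  simp [rho, cg, liftA_g]
lemma rho_cg4 : rho (cg 4) =
    sJ (X 0) (X 1) (X 2) (bF (X 0) (X 1) (X 2) (X 3) (X 4)) (bJ (X 0) (X 1) (X 2) (X 3) (X 4))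
      (bW (X 0) (X 1) (X 2) (X 3) (X 4)) := by
  simp [rho, cg, liftA_g]
lemma rho_X : rho Polynomial.X = bW (X 0) (X 1) (X 2) (X 3) (X 4) := by simp [rho]

lemma rho_tS : rho tS = X 1 := by
  rw [tS, map_sS, rho_cg0, rho_cg1, rho_cg2, rho_cg3, map_neg, rho_X, sS_inv]
lemma rho_tU : rho tU = X 2 := by
  rw [tU, map_sU, rho_cg0, rho_cg2, map_neg, rho_X, sU_inv]
lemma rho_tF : rho tF = bF (X 0) (X 1) (X 2) (X 3) (X 4) := by
  rw [tF, map_sF, rho_cg0, rho_cg1, rho_cg2, rho_cg3, map_neg, rho_X, sF_inv]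
lemma rho_tJ : rho tJ = bJ (X 0) (X 1) (X 2) (X 3) (X 4) := by
  rw [tJ, map_sJ, rho_cg0, rho_cg1, rho_cg2, rho_cg3, rho_cg4, map_neg, rho_X, sJ_inv]

lemma tau0 : tau (X 0) = cg 0 := by simp [tau]
lemma tau1 : tau (X 1) = tS := by simp [tau]
lemma tau2 : tau (X 2) = tU := by simp [tau]
lemma tau3 : tau (X 3) = bM tS tU tF tJ := by simp [tau]
lemma tau4 : tau (X 4) = Polynomial.X + GG (cg 0) tS tU tF tJ := by simp [tau]

lemma tau_bF : tau (bF (X 0) (X 1) (X 2) (X 3) (X 4)) = tF := by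
  rw [map_bF, tau0, tau1, tau2, tau3, tau4, bF_inv HH_t]
lemma tau_bJ : tau (bJ (X 0) (X 1) (X 2) (X 3) (X 4)) = tJ := by
  rw [map_bJ, tau0, tau1, tau2, tau3, tau4, bJ_inv HH_t]
lemma tau_bW : tau (bW (X 0) (X 1) (X 2) (X 3) (X 4)) = Polynomial.X := by
  rw [map_bW, tau0, tau1, tau2, tau3, tau4, bW_inv HH_t]

lemma rho_tau : rho.comp tau = AlgHom.id ℂ P5 := by
  ext i : 1
  rw [AlgHom.comp_apply, AlgHom.id_apply]
  fin_cases i
  · exact (congrArg rho tau0).trans rho_cg0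
  · exact (congrArg rho tau1).trans rho_tS
  · exact (congrArg rho tau2).trans rho_tU
  · refine (congrArg rho tau3).trans ?_
    rw [map_bM, rho_tS, rho_tU, rho_tF, rho_tJ, bM_b]; rfl
  · refine (congrArg rho tau4).trans ?_
    rw [map_add, map_GG, rho_cg0, rho_tS, rho_tU, rho_tF, rho_tJ, rho_X, bW, sub_add_cancel]; rfl

lemma tau_rho : tau.comp rho = AlgHom.id ℂ (Polynomial AA) := by
  apply Polynomial.algHom_ext'
  · apply AA_ext
    intro i
    change tau (rho (cg i)) = cg i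
    have e := neg_neg (Polynomial.X : Polynomial AA)
    fin_cases i
    · exact (congrArg tau rho_cg0).trans tau0
    · refine (congrArg tau rho_cg1).trans ?_
      rw [map_sS, tau0, tau1, tau2, tau_bF, tau_bW, ← e]
      exact sS_inv _ _ _ _ _
    · refine (congrArg tau rho_cg2).trans ?_
      rw [map_sU, tau0, tau2, tau_bW, ← e]
      exact sU_inv _ _ _
    · refine (congrArg tau rho_cg3).trans ?_
      rw [map_sF, tau0, tau1, tau2, tau_bF, tau_bW, ← e]
      exact sF_inv _ _ _ _ _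
    · refine (congrArg tau rho_cg4).trans ?_
      rw [map_sJ, tau0, tau1, tau2, tau_bF, tau_bJ, tau_bW, ← e]
      exact sJ_inv _ _ _ _ _ _
  · change tau (rho Polynomial.X) = Polynomial.X
    rw [rho_X, tau_bW]

noncomputable def stableIso : Polynomial AA ≃ₐ[ℂ] P5 := AlgEquiv.ofAlgHom rho tau rho_tau tau_rho

end Vale.Agent.P295
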