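import Vale.Agent.P293.Main

namespace Vale.Agent.P295

open Polynomial

lemma coeff0_aux {A B : Type*} [CommRing A] [Algebra ℂ A] [CommRing B] [Algebra ℂ B]
    (κ : A[X] ≃ₐ[ℂ] B[X]) (h : κ X = X) (q : A[X]) :
    (κ (C (q.coeff 0))).coeff 0 = (κ q).coeff 0 := by
  conv_rhs => rw [← X_mul_divX_add q, map_add, map_mul, h]
  simp

noncomputable def descend {A B : Type*} [CommRing A] [Algebra ℂ A] [CommRing B] [Algebra ℂ B]
    (κ : A[X] ≃ₐ[ℂ] B[X]) : A →ₐ[ℂ] B :=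
  ((aevalTower (AlgHom.id ℂ B) (0 : B)).comp (κ : A[X] →ₐ[ℂ] B[X])).comp CAlgHom

lemma descend_apply {A B : Type*} [CommRing A] [Algebra ℂ A] [CommRing B] [Algebra ℂ B]
    (κ : A[X] ≃ₐ[ℂ] B[X]) (a : A) : descend κ a = (κ (C a)).coeff 0 := by
  have : ∀ q : B[X], aevalTower (AlgHom.id ℂ B) (0 : B) q = q.coeff 0 := by
    intro q
    conv_lhs => rw [← X_mul_divX_add q, map_add, map_mul, aevalTower_X, aevalTower_C]
    simp
  simp [descend, this]

lemma cancel {A B : Type*} [CommRing A] [Algebra ℂ A] [CommRing B] [Algebra ℂ B]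
    (κ : A[X] ≃ₐ[ℂ] B[X]) (h : κ X = X) : Nonempty (A ≃ₐ[ℂ] B) := by
  have h' : κ.symm X = X := by rw [AlgEquiv.symm_apply_eq, h]
  refine ⟨AlgEquiv.ofAlgHom (descend κ) (descend κ.symm) ?_ ?_⟩
  · ext b
    simp [descend_apply, coeff0_aux κ h]
  · ext a
    simp [descend_apply, coeff0_aux κ.symm h']

theorem of_noncancel {n : ℕ} {A : Type*} [CommRing A] [Algebra ℂ A]
    (e : A[X] ≃ₐ[ℂ] MvPolynomial (Fin (n + 1)) ℂ) (hA : IsEmpty (A ≃ₐ[ℂ] MvPolynomial (Fin n) ℂ)) :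
    ∃ f : MvPolynomial (Fin (n + 1)) ℂ,
      (∃ φ : MvPolynomial (Fin (n + 2)) ℂ ≃ₐ[ℂ] MvPolynomial (Fin (n + 2)) ℂ,
        φ (MvPolynomial.rename Fin.castSucc f) = MvPolynomial.X 0) ∧
      ¬ ∃ ψ : MvPolynomial (Fin (n + 1)) ℂ ≃ₐ[ℂ] MvPolynomial (Fin (n + 1)) ℂ,
        ψ f = MvPolynomial.X 0 := by
  refine ⟨e X, ?_, ?_⟩
  · let σ : MvPolynomial (Fin (n + 2)) ℂ ≃ₐ[ℂ] (MvPolynomial (Fin (n + 1)) ℂ)[X] :=
      (MvPolynomial.renameEquiv ℂ finSuccEquivLast).trans (MvPolynomial.optionEquivLeft ℂ _)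
    have hσ : ∀ f, σ (MvPolynomial.rename Fin.castSucc f) = C f := by
      intro f
      induction f using MvPolynomial.induction_on with
      | C c => simp [σ]
      | add a b ha hb => simp only [map_add, ha, hb]
      | mul_X a i ha => rw [map_mul, map_mul, ha, map_mul]; simp [σ]
    refine ⟨σ.trans <| (mapAlgEquiv e.symm).trans <|
      ((Bivariate.swap (R := A)).restrictScalars ℂ).trans <| (mapAlgEquiv e).trans
      (MvPolynomial.finSuccEquiv ℂ (n + 1)).symm, ?_⟩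
    simp only [AlgEquiv.trans_apply, hσ, AlgEquiv.symm_apply_eq, MvPolynomial.finSuccEquiv_X_zero]
    simp [Bivariate.swap_X]
  · rintro ⟨ψ, hψ⟩
    obtain ⟨κ⟩ := cancel (e.trans (ψ.trans (MvPolynomial.finSuccEquiv ℂ n)))
      (by simp [hψ, MvPolynomial.finSuccEquiv_X_zero])
    exact hA.false κ

end Vale.Agent.P295
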