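import Vale.Agent.P295.Ex4

namespace Vale.Agent.P295

open Vale.Agent.P293

open AddMonoidAlgebra

noncomputable def Data.map {A B : Type*} [CommRing A] [Algebra ℂ A] [CommRing B] [Algebra ℂ B] (d : Data A)
    (e : A ≃ₐ[ℂ] B) : Data B where
  p := e d.p
  u := e d.u
  x := e d.x
  y := e d.y
  z := e d.z
  V0 := e d.V0
  V1 := e d.V1
  V2 := e d.V2
  j := d.j.comp (e.symm : B →ₐ[ℂ] A)
  r1 := by simpa using congrArg e d.r1
  r7 := by simpa using congrArg e d.r7
  r8 := by simpa using congrArg e d.r8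
  r9 := by simpa using congrArg e d.r9
  hgen := by
    have h := congrArg (Subalgebra.map (e : A →ₐ[ℂ] B)) d.hgen
    rw [AlgHom.map_adjoin, Algebra.map_top, (AlgHom.range_eq_top _).mpr e.surjective] at h
    simpa [Set.image_insert_eq] using h
  jp := by simpa using d.jp
  ju := by simpa using d.ju
  jx := by simpa using d.jx
  jy := by simpa using d.jy

section generic

variable {R : Type*} [CommRing R]

def lz (p u y xi : R) : R := (y ^ 2 + y - p * u) * xi
def lS (p u x y xi : R) : R := lz p u y xi - x * (x + u ^ 2)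
def lF (p u x y xi pi : R) : R := (x - lS p u x y xi ^ 2 + u ^ 2) * pi
def lJ (p u x y xi pi : R) : R := (y - lS p u x y xi * x) * pi

lemma l_xx {p u x y xi pi : R} (hp : p * pi = 1) :
    xx p (lS p u x y xi) u (lF p u x y xi pi) = x := by
  unfold xx lF
  linear_combination (x - lS p u x y xi ^ 2 + u ^ 2) * hp

lemma l_yy {p u x y xi pi : R} (hp : p * pi = 1) :
    lS p u x y xi * x + p * lJ p u x y xi pi = y := by
  unfold lJ
  linear_combination (y - lS p u x y xi * x) * hp

lemma p2H (p s u F J : R) : p * HH p s u F J =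
    xx p s u F * (s + xx p s u F * (xx p s u F + u ^ 2)) - (s * xx p s u F + p * J) ^ 2 -
      (s * xx p s u F + p * J) + p * u := by
  have hx : xx p s u F = s ^ 2 - u ^ 2 + p * F := rfl
  unfold HH
  generalize xx p s u F = x at hx ⊢
  linear_combination (-x ^ 2) * hx

lemma l_HH {p u x y xi pi : R} (hp : p * pi = 1) (hx : x * xi = 1) :
    HH p (lS p u x y xi) u (lF p u x y xi pi) (lJ p u x y xi pi) = 0 := by
  have h := p2H p (lS p u x y xi) u (lF p u x y xi pi) (lJ p u x y xi pi)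
  rw [l_xx hp, l_yy hp] at h
  have h2 : p * HH p (lS p u x y xi) u (lF p u x y xi pi) (lJ p u x y xi pi) = 0 := by
    rw [h, lS, lz]
    linear_combination (y ^ 2 + y - p * u) * hx
  linear_combination pi * h2 -
    HH p (lS p u x y xi) u (lF p u x y xi pi) (lJ p u x y xi pi) * hp

def cQ (a b c d : R) : R := b ^ 2 - d ^ 2 + a * c
def cP (a b c d : R) : R := a - 2 * cQ a b c d * (cQ a b c d * (b + d) + a * d)
def cS (a b c d : R) : R :=
  b + (cQ a b c d * (b + d) + a * d) * d - cQ a b c d * d * (b - d) + cQ a b c d ^ 2 * c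
def cU (a b c d : R) : R :=
  d + (cQ a b c d * (b + d) + a * d) * d + cQ a b c d * d * (b - d) - cQ a b c d ^ 2 * c
def cF (a b c d : R) : R := c * (1 + 2 * cQ a b c d * d) - 2 * d ^ 2 * (b - d)
def eA (p s u F J : R) : R := p + 2 * xx p s u F * (xx p s u F * (s + u) + p * J)
def eB (p s u F J : R) : R := (1 + 2 * xx p s u F * J) * (s - u) - 2 * xx p s u F ^ 2 * F + J
def eC (p s u F J : R) : R := 2 * J ^ 2 * (s - u) + (1 - 2 * xx p s u F * J) * F

lemma xx_c (a b c d : R) : xx (cP a b c d) (cS a b c d) (cU a b c d) (cF a b c d) = cQ a b c d := by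
  have hq : cQ a b c d = b ^ 2 - d ^ 2 + a * c := rfl
  unfold xx cP cS cU cF
  generalize cQ a b c d = q at hq ⊢
  linear_combination -hq

lemma HH_c (a b c d : R) : HH (cP a b c d) (cS a b c d) (cU a b c d) (cF a b c d) d = 0 := by
  rw [HH, xx_c]
  unfold cP cS cU cF
  ring

lemma eA_c (a b c d : R) : eA (cP a b c d) (cS a b c d) (cU a b c d) (cF a b c d) d = a := by
  rw [eA, xx_c]; unfold cP cS cU; ring
lemma eB_c (a b c d : R) : eB (cP a b c d) (cS a b c d) (cU a b c d) (cF a b c d) d = b := by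
  rw [eB, xx_c]; unfold cS cU cF; ring
lemma eC_c (a b c d : R) : eC (cP a b c d) (cS a b c d) (cU a b c d) (cF a b c d) d = c := by
  rw [eC, xx_c]; unfold cS cU cF; ring

lemma cQ_e {p s u F J : R} (h : HH p s u F J = 0) :
    cQ (eA p s u F J) (eB p s u F J) (eC p s u F J) J = xx p s u F := by
  have hx : xx p s u F = s ^ 2 - u ^ 2 + p * F := rfl
  unfold HH at h
  unfold cQ eA eB eC
  generalize xx p s u F = x at hx h ⊢
  linear_combination -hx - 2 * ((1 + 2 * x * J) * (s - u) - 2 * x ^ 2 * F) * h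

lemma cP_e {p s u F J : R} (h : HH p s u F J = 0) :
    cP (eA p s u F J) (eB p s u F J) (eC p s u F J) J = p := by
  rw [cP, cQ_e h]
  unfold HH at h
  unfold eA eB
  generalize xx p s u F = x at h ⊢
  linear_combination 4 * x ^ 2 * h

lemma cF_e {p s u F J : R} (h : HH p s u F J = 0) :
    cF (eA p s u F J) (eB p s u F J) (eC p s u F J) J = F := by
  rw [cF, cQ_e h]
  unfold eB eC
  ring

lemma cS_e {p s u F J : R} (h : HH p s u F J = 0) :
    cS (eA p s u F J) (eB p s u F J) (eC p s u F J) J = s := by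
  rw [cS, cQ_e h]
  unfold HH at h
  unfold eA eB eC
  generalize xx p s u F = x at h ⊢
  linear_combination (-1 - 2 * x * J) * h

lemma cU_e {p s u F J : R} (h : HH p s u F J = 0) :
    cU (eA p s u F J) (eB p s u F J) (eC p s u F J) J = u := by
  rw [cU, cQ_e h]
  unfold HH at h
  unfold eA eB eC
  generalize xx p s u F = x at h ⊢
  linear_combination (-1 - 2 * x * J) * h

variable {S T : Type*} [CommRing S] [FunLike T R S] [RingHomClass T R S] (φ : T)

lemma map_cQ (a b c d : R) : φ (cQ a b c d) = cQ (φ a) (φ b) (φ c) (φ d) := by simp [cQ]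
lemma map_cP (a b c d : R) : φ (cP a b c d) = cP (φ a) (φ b) (φ c) (φ d) := by
  simp [cP, map_cQ, map_ofNat]
lemma map_cS (a b c d : R) : φ (cS a b c d) = cS (φ a) (φ b) (φ c) (φ d) := by
  simp [cS, map_cQ]
lemma map_cU (a b c d : R) : φ (cU a b c d) = cU (φ a) (φ b) (φ c) (φ d) := by
  simp [cU, map_cQ]
lemma map_cF (a b c d : R) : φ (cF a b c d) = cF (φ a) (φ b) (φ c) (φ d) := by
  simp [cF, map_cQ, map_ofNat]
lemma map_eA (p s u F J : R) : φ (eA p s u F J) = eA (φ p) (φ s) (φ u) (φ F) (φ J) := by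
  simp [eA, map_xx, map_ofNat]
lemma map_eB (p s u F J : R) : φ (eB p s u F J) = eB (φ p) (φ s) (φ u) (φ F) (φ J) := by
  simp [eB, map_xx, map_ofNat]
lemma map_eC (p s u F J : R) : φ (eC p s u F J) = eC (φ p) (φ s) (φ u) (φ F) (φ J) := by
  simp [eC, map_xx, map_ofNat]

end generic

open Polynomial in
noncomputable def jA : AA →ₐ[ℂ] Lam :=
  liftA ![single (wm (-1) 0 0) 1,
    lS (single (wm (-1) 0 0) 1) (single (wm 0 1 0) X) (single (wm 0 0 1) 1) (single (wm 0 1 1) 1)
      (single (wm 0 0 (-1)) 1),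
    single (wm 0 1 0) X,
    lF (single (wm (-1) 0 0) 1) (single (wm 0 1 0) X) (single (wm 0 0 1) 1) (single (wm 0 1 1) 1)
      (single (wm 0 0 (-1)) 1) (single (wm 1 0 0) 1),
    lJ (single (wm (-1) 0 0) 1) (single (wm 0 1 0) X) (single (wm 0 0 1) 1) (single (wm 0 1 1) 1)
      (single (wm 0 0 (-1)) 1) (single (wm 1 0 0) 1)]
    (by
      simp only [Matrix.cons_val]
      apply l_HH
      · rw [single_mul_single, one_mul]; rfl
      · rw [single_mul_single, one_mul]; rfl)

noncomputable def dataA : Data AA where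
  p := g 0
  u := g 2
  x := xx (g 0) (g 1) (g 2) (g 3)
  y := g 1 * xx (g 0) (g 1) (g 2) (g 3) + g 0 * g 4
  z := g 1 + xx (g 0) (g 1) (g 2) (g 3) * (xx (g 0) (g 1) (g 2) (g 3) + g 2 ^ 2)
  V0 := g 4 - g 2
  V1 := xx (g 0) (g 1) (g 2) (g 3) * g 3 - g 1 * g 4
  V2 := g 3 + (xx (g 0) (g 1) (g 2) (g 3) + g 2 ^ 2) * (g 4 + g 2)
  j := jA
  r1 := by
    have h := p2H (g 0) (g 1) (g 2) (g 3) (g 4)
    rw [HH_g] at h
    linear_combination -h
  r7 := by
    have h := p2H (g 0) (g 1) (g 2) (g 3) (g 4)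
    rw [HH_g] at h
    linear_combination h
  r8 := by
    have hx : xx (g 0) (g 1) (g 2) (g 3) = g 1 ^ 2 - g 2 ^ 2 + g 0 * g 3 := rfl
    generalize xx (g 0) (g 1) (g 2) (g 3) = x at hx ⊢
    linear_combination (-x) * hx
  r9 := by
    have h := p2H (g 0) (g 1) (g 2) (g 3) (g 4)
    rw [HH_g] at h
    have hx : xx (g 0) (g 1) (g 2) (g 3) = g 1 ^ 2 - g 2 ^ 2 + g 0 * g 3 := rfl
    generalize xx (g 0) (g 1) (g 2) (g 3) = x at hx h ⊢
    linear_combination (-(x + g 2 ^ 2)) * h - hx
  hgen := by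
    set S : Subalgebra ℂ AA := Algebra.adjoin ℂ _ with hS
    have m : ∀ {a : AA}, a ∈ ({g 0, g 2, xx (g 0) (g 1) (g 2) (g 3),
        g 1 * xx (g 0) (g 1) (g 2) (g 3) + g 0 * g 4,
        g 1 + xx (g 0) (g 1) (g 2) (g 3) * (xx (g 0) (g 1) (g 2) (g 3) + g 2 ^ 2), g 4 - g 2,
        xx (g 0) (g 1) (g 2) (g 3) * g 3 - g 1 * g 4,
        g 3 + (xx (g 0) (g 1) (g 2) (g 3) + g 2 ^ 2) * (g 4 + g 2)} : Set AA) → a ∈ S :=
      fun h => Algebra.subset_adjoin h
    have h0 : g 0 ∈ S := m (by simp)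
    have h2 : g 2 ∈ S := m (by simp)
    have hx : xx (g 0) (g 1) (g 2) (g 3) ∈ S := m (by simp)
    have hq := S.add_mem hx (S.pow_mem h2 2)
    have h1 : g 1 ∈ S := by
      have := S.sub_mem (m (a := g 1 + xx (g 0) (g 1) (g 2) (g 3) *
        (xx (g 0) (g 1) (g 2) (g 3) + g 2 ^ 2)) (by simp)) (S.mul_mem hx hq)
      simpa using this
    have h4 : g 4 ∈ S := by
      have := S.add_mem (m (a := g 4 - g 2) (by simp)) h2
      simpa using this
    have h3 : g 3 ∈ S := by
      have := S.sub_mem (m (a := g 3 + (xx (g 0) (g 1) (g 2) (g 3) + g 2 ^ 2) * (g 4 + g 2))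
        (by simp)) (S.mul_mem hq (S.add_mem h4 h2))
      simpa using this
    rw [eq_top_iff]
    intro a ha
    clear ha
    obtain ⟨b, rfl⟩ := mkA_surj a
    induction b using MvPolynomial.induction_on with
    | C c => rw [← MvPolynomial.algebraMap_eq, AlgHom.commutes]; exact S.algebraMap_mem c
    | add a b ha hb => rw [map_add]; exact S.add_mem ha hb
    | mul_X a i ha =>
      rw [map_mul]
      refine S.mul_mem ha ?_
      fin_cases i
      exacts [h0, h1, h2, h3, h4]
  jp := by simp [jA, liftA_g]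
  ju := by simp [jA, liftA_g]
  jx := by
    rw [map_xx]
    simp only [jA, liftA_g, Matrix.cons_val]
    apply l_xx
    rw [single_mul_single, one_mul]; rfl
  jy := by
    have hp : (single (wm (-1) 0 0) 1 * single (wm 1 0 0) 1 : Lam) = 1 := by
      rw [single_mul_single, one_mul]; rfl
    rw [map_add, map_mul, map_mul, map_xx]
    simp only [jA, liftA_g, Matrix.cons_val]
    rw [l_xx hp, l_yy hp]

open MvPolynomial in
theorem Data.not_coord (d : Data (MvPolynomial (Fin 4) ℂ)) (hp : d.p = X 0) : False := by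
  classical
  have hex : ∃ i γ, (d.j (X i)).coeff γ ≠ 0 ∧ 0 < ca γ := by
    by_contra hc
    push Not at hc
    have hall : ∀ f γ, 0 < ca γ → (d.j f).coeff γ = 0 := by
      intro f
      induction f using MvPolynomial.induction_on with
      | C c =>
        intro γ hγ
        rw [← MvPolynomial.algebraMap_eq, AlgHom.commutes, Algebra.algebraMap_eq_smul_one,
          coeff_smul_apply, AddMonoidAlgebra.one_def, coeff_single, Finsupp.single_apply, if_neg, smul_zero]
        rintro rfl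
        simp at hγ
      | add a b ha hb => intro γ hγ; simp [ha γ hγ, hb γ hγ]
      | mul_X a i ha =>
        intro γ hγ
        rw [map_mul, AddMonoidAlgebra.coeff_mul]
        refine Finset.sum_eq_zero fun α hα => Finset.sum_eq_zero fun β hβ => ?_
        refine if_neg ?_
        rintro rfl
        have h1 := hc i β (Finsupp.mem_support_iff.mp hβ)
        have h2 : ¬ 0 < ca α := fun h => Finsupp.mem_support_iff.mp hα (ha α h)
        rw [ca_add] at hγ
        omega
    have h1 := hall d.V0 (wm 1 2 2) (by simp)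
    rw [d.top_V0.2] at h1
    have := congrArg (fun q : Polynomial ℂ => q.coeff 0) h1
    simp at this
  obtain ⟨i0, γ, h1, h2⟩ := hex
  obtain ⟨i1, hi, hi'⟩ : ∃ i1 : Fin 4, i1 ≠ i0 ∧ i1 ≠ 0 := by clear h1; revert i0; decide
  let E : MvPolynomial (Fin 4) ℂ →ₐ[ℂ] Polynomial (MvPolynomial (Fin 4) ℂ) :=
    aeval fun i => Polynomial.C (X i) + if i = i1 then Polynomial.X else 0
  have EX : ∀ i, E (X i) = Polynomial.C (X i) + if i = i1 then Polynomial.X else 0 :=
    fun i => aeval_X _ i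
  have EC : ∀ c, E (C c) = Polynomial.C (C c) := fun c => by
    rw [← MvPolynomial.algebraMap_eq, AlgHom.commutes]; rfl
  refine d.core (pderiv i1) E ?_ ?_ (t := X i1) (by simp) (by simp [hp, hi'.symm]) (f0 := X i0)
    (by simp [hi.symm]) h1 h2
  · intro f
    induction f using MvPolynomial.induction_on with
    | C c => rw [EC]; simp
    | add a b ha hb => simp [ha, hb]
    | mul_X a i ha =>
      rw [map_mul, Polynomial.mul_coeff_zero, ha, EX]
      split_ifs <;> simp
  · intro f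
    induction f using MvPolynomial.induction_on with
    | C c => rw [EC]; simp
    | add a b ha hb => simp [ha, hb]
    | mul_X a i ha =>
      rw [map_mul, Polynomial.derivative_mul, ha, Derivation.leibniz, smul_eq_mul, smul_eq_mul,
        map_add, map_mul, map_mul, EX, pderiv_X, Pi.single_apply]
      split_ifs with h
      · simp; ring
      · simp; ring

open MvPolynomial

abbrev P4 := MvPolynomial (Fin 4) ℂ

noncomputable def toP4 : AA →ₐ[ℂ] P4 :=
  liftA ![cP (X 0) (X 1) (X 2) (X 3), cS (X 0) (X 1) (X 2) (X 3), cU (X 0) (X 1) (X 2) (X 3),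
    cF (X 0) (X 1) (X 2) (X 3), X 3] (by simp only [Matrix.cons_val]; exact HH_c _ _ _ _)

noncomputable def ofP4 : P4 →ₐ[ℂ] AA :=
  aeval ![eA (g 0) (g 1) (g 2) (g 3) (g 4), eB (g 0) (g 1) (g 2) (g 3) (g 4),
    eC (g 0) (g 1) (g 2) (g 3) (g 4), g 4]

lemma to0 : toP4 (g 0) = cP (X 0) (X 1) (X 2) (X 3) := by simp [toP4, liftA_g]
lemma to1 : toP4 (g 1) = cS (X 0) (X 1) (X 2) (X 3) := by simp [toP4, liftA_g]
lemma to2 : toP4 (g 2) = cU (X 0) (X 1) (X 2) (X 3) := by simp [toP4, liftA_g]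
lemma to3 : toP4 (g 3) = cF (X 0) (X 1) (X 2) (X 3) := by simp [toP4, liftA_g]
lemma to4 : toP4 (g 4) = X 3 := by simp [toP4, liftA_g]
lemma of0 : ofP4 (X 0) = eA (g 0) (g 1) (g 2) (g 3) (g 4) := by simp [ofP4]
lemma of1 : ofP4 (X 1) = eB (g 0) (g 1) (g 2) (g 3) (g 4) := by simp [ofP4]
lemma of2 : ofP4 (X 2) = eC (g 0) (g 1) (g 2) (g 3) (g 4) := by simp [ofP4]
lemma of3 : ofP4 (X 3) = g 4 := by simp [ofP4]

noncomputable def iso4 : AA ≃ₐ[ℂ] P4 := AlgEquiv.ofAlgHom toP4 ofP4
  (by
    ext i : 1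
    rw [AlgHom.comp_apply, AlgHom.id_apply]
    fin_cases i
    · refine (congrArg toP4 of0).trans ?_
      rw [map_eA, to0, to1, to2, to3, to4, eA_c]; rfl
    · refine (congrArg toP4 of1).trans ?_
      rw [map_eB, to0, to1, to2, to3, to4, eB_c]; rfl
    · refine (congrArg toP4 of2).trans ?_
      rw [map_eC, to0, to1, to2, to3, to4, eC_c]; rfl
    · exact (congrArg toP4 of3).trans to4)
  (by
    apply AA_ext
    intro i
    rw [AlgHom.comp_apply, AlgHom.id_apply]
    fin_cases i
    · refine (congrArg ofP4 to0).trans ?_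
      rw [map_cP, of0, of1, of2, of3, cP_e HH_g]; rfl
    · refine (congrArg ofP4 to1).trans ?_
      rw [map_cS, of0, of1, of2, of3, cS_e HH_g]; rfl
    · refine (congrArg ofP4 to2).trans ?_
      rw [map_cU, of0, of1, of2, of3, cU_e HH_g]; rfl
    · refine (congrArg ofP4 to3).trans ?_
      rw [map_cF, of0, of1, of2, of3, cF_e HH_g]; rfl
    · exact (congrArg ofP4 to4).trans of3)

theorem main4 :
    (∃ φ : MvPolynomial (Fin 5) ℂ ≃ₐ[ℂ] MvPolynomial (Fin 5) ℂ,
      φ (rename Fin.castSucc (cP (X 0) (X 1) (X 2) (X 3) : P4)) = X 0) ∧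
    ¬ ∃ ψ : P4 ≃ₐ[ℂ] P4, ψ (cP (X 0) (X 1) (X 2) (X 3)) = X 0 := by
  constructor
  · let σ : MvPolynomial (Fin 5) ℂ ≃ₐ[ℂ] Polynomial P4 :=
      (renameEquiv ℂ finSuccEquivLast).trans (optionEquivLeft ℂ _)
    have hσ : ∀ f : P4, σ (rename Fin.castSucc f) = Polynomial.C f := by
      intro f
      induction f using MvPolynomial.induction_on with
      | C c => simp [σ]
      | add a b ha hb => simp only [map_add, ha, hb]
      | mul_X a i ha => rw [map_mul, map_mul, ha, map_mul]; simp [σ]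
    refine ⟨σ.trans <| (Polynomial.mapAlgEquiv iso4.symm).trans stableIso, ?_⟩
    have h : iso4.symm (cP (X 0) (X 1) (X 2) (X 3)) = g 0 := by
      rw [AlgEquiv.symm_apply_eq]; exact to0.symm
    simp only [AlgEquiv.trans_apply, hσ, Polynomial.coe_mapAlgEquiv, Polynomial.map_C]
    exact (congrArg (fun t => stableIso (Polynomial.C t)) h).trans rho_cg0
  · rintro ⟨ψ, hψ⟩
    exact (dataA.map (iso4.trans ψ)).not_coord ((congrArg ψ to0).trans hψ)

end Vale.Agent.P295
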