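import Vale.Agent.P295.Span4
import Vale.Agent.P293.Poly

namespace Vale.Agent.P295

open Vale.Agent.P293

open Polynomial AddMonoidAlgebra

abbrev LL := FractionRing ℂ[X]

noncomputable def iota : ℂ →+* LL := (algebraMap ℂ[X] LL).comp C

instance : CharZero LL := iota.charZero_iff iota.injective |>.mp inferInstance

lemma alg_ne {q : ℂ[X]} (h : q ≠ 0) : algebraMap ℂ[X] LL q ≠ 0 := by simpa using h

structure Flow (A : Type*) [CommRing A] [Algebra ℂ A] extends Data A where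
  D : Derivation ℂ A A
  E : A →ₐ[ℂ] A[X]
  h0 : ∀ f, (E f).coeff 0 = f
  hD : ∀ f, derivative (E f) = E (D f)
  ε : Wt
  lp : Le (j (D p)) (wm (-1) 0 0 + ε)
  lu : Le (j (D u)) (wm 0 1 0 + ε)
  lx : Le (j (D x)) (wm 0 0 1 + ε)
  ly : Le (j (D y)) (wm 0 1 1 + ε)
  lz : Le (j (D z)) (wm 0 2 1 + ε)
  l0 : Le (j (D V0)) (wm 1 2 2 + ε)
  l1 : Le (j (D V1)) (wm 1 3 2 + ε)
  l2 : Le (j (D V2)) (wm 1 4 2 + ε)

variable {A : Type*} [CommRing A] [Algebra ℂ A] [IsDomain A]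

lemma Data.key_ind (d : Data A) {γ : Wt} (P : A → Prop) (h0 : P 0)
    (hadd : ∀ f g, P f → P g → P (f + g)) (hsmul : ∀ (c : ℂ) f, P f → P (c • f))
    (hlow : ∀ e : Ex, e.wt < γ → P (d.mon e)) (heq : ∀ e : Ex, e.wt = γ → P (d.mon e))
    {f : A} (hf : Le (d.j f) γ) : P f := by
  have h := d.key hf
  clear hf
  induction h using Submodule.span_induction with
  | mem g hg =>
    obtain ⟨e, he, rfl⟩ := hg
    rcases lt_or_eq_of_le (show e.wt ≤ γ from he) with h | h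
    · exact hlow e h
    · exact heq e h
  | zero => exact h0
  | add f g _ _ hf hg => exact hadd f g hf hg
  | smul c f _ hf => exact hsmul c f hf

lemma Data.exists_wt (d : Data A) {γ : Wt} {f : A} (hf : Le (d.j f) γ)
    (h : (d.j f).coeff γ ≠ 0) : ∃ e : Ex, e.wt = γ := by
  by_contra hc
  apply h
  refine d.key_ind (fun f => (d.j f).coeff γ = 0) (by simp) ?_ ?_ ?_ ?_ hf
  · intro f g h1 h2; simp [h1, h2]
  · intro c f h1; simp [h1]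
  · intro e he; exact (d.top_mon e).1 _ he
  · intro e he; exact absurd ⟨e, he⟩ hc

namespace Flow

variable (d : Flow A)

omit [IsDomain A] in
lemma leD_mon (e : Ex) : Le (d.j (d.D (d.mon e))) (e.wt + d.ε) := by
  refine (d.mon_ind (fun f α => Le (d.j f) α ∧ Le (d.j (d.D f)) (α + d.ε)) ?_ ?_
    ⟨d.top_p.1, d.lp⟩ ⟨d.top_u.1, d.lu⟩ ⟨d.top_x.1, d.lx⟩ ⟨d.top_y.1, d.ly⟩ ⟨d.top_z.1, d.lz⟩
    ⟨d.top_V0.1, d.l0⟩ ⟨d.top_V1.1, d.l1⟩ ⟨d.top_V2.1, d.l2⟩ e).2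
  · refine ⟨by rw [map_one]; exact Top.one.1, by simpa using Le.zero _⟩
  · rintro f g α β ⟨h1, h2⟩ ⟨h3, h4⟩
    refine ⟨by rw [map_mul]; exact h1.mul h3, ?_⟩
    rw [Derivation.leibniz, smul_eq_mul, smul_eq_mul, map_add, map_mul, map_mul]
    refine Le.add ?_ ?_
    · rw [add_assoc]; exact h1.mul h4
    · rw [add_comm α β, add_assoc]; exact h3.mul h2

lemma leD {f : A} {γ : Wt} (hf : Le (d.j f) γ) : Le (d.j (d.D f)) (γ + d.ε) := by
  refine d.key_ind (fun f => Le (d.j (d.D f)) (γ + d.ε)) (by simpa using Le.zero _) ?_ ?_ ?_ ?_ hf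
  · intro f g h1 h2; rw [map_add, map_add]; exact h1.add h2
  · intro c f h1; rw [Derivation.map_smul, map_smul]; exact h1.smul c
  · intro e he; exact (d.leD_mon e).mono (by gcongr)
  · intro e he; exact he ▸ d.leD_mon e

omit [IsDomain A] in
lemma coeff_succ (f : A) (n : ℕ) :
    (d.E f).coeff (n + 1) = ((n + 1 : ℂ)⁻¹) • (d.E (d.D f)).coeff n := by
  rw [← d.hD, coeff_derivative]
  have h : ((n : A) + 1) = algebraMap ℂ A (n + 1) := by simp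
  have h2 : (n + 1 : ℂ) ≠ 0 := by exact_mod_cast Nat.succ_ne_zero n
  rw [h, mul_comm, ← Algebra.smul_def, smul_smul, inv_mul_cancel₀ h2, one_smul]

lemma leE (n : ℕ) : ∀ {f : A} {γ : Wt}, Le (d.j f) γ →
    Le (d.j ((d.E f).coeff n)) (γ + n • d.ε) := by
  induction n with
  | zero => intro f γ hf; simpa [d.h0] using hf
  | succ n ih =>
    intro f γ hf
    rw [d.coeff_succ, map_smul, succ_nsmul', ← add_assoc]
    exact (ih (d.leD hf)).smul _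

noncomputable def Φ (γ : Wt) (f : A) : LL[X] :=
  ∑ n ∈ (d.E f).support,
    monomial n (algebraMap ℂ[X] LL ((d.j ((d.E f).coeff n)).coeff (γ + n • d.ε)))

omit [IsDomain A] in
lemma coeff_Φ (γ : Wt) (f : A) (n : ℕ) :
    (d.Φ γ f).coeff n = algebraMap ℂ[X] LL ((d.j ((d.E f).coeff n)).coeff (γ + n • d.ε)) := by
  rw [Φ, finsetSum_coeff, Finset.sum_eq_single n]
  · simp
  · intro m _ hm; rw [coeff_monomial, if_neg hm]
  · intro hn; rw [notMem_support_iff.mp hn]; simp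

omit [IsDomain A] in
lemma Φ_coeff_zero (γ : Wt) (f : A) :
    (d.Φ γ f).coeff 0 = algebraMap ℂ[X] LL ((d.j f).coeff γ) := by
  simp [coeff_Φ, d.h0]

omit [IsDomain A] in
lemma Φ_zero (γ : Wt) : d.Φ γ 0 = 0 := by
  ext n; simp [coeff_Φ]

omit [IsDomain A] in
lemma Φ_add (γ : Wt) (f g : A) : d.Φ γ (f + g) = d.Φ γ f + d.Φ γ g := by
  ext n; simp [coeff_Φ]

omit [IsDomain A] in
lemma Φ_neg (γ : Wt) (f : A) : d.Φ γ (-f) = -d.Φ γ f := by
  ext n; simp [coeff_Φ]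

omit [IsDomain A] in
lemma Φ_smul (γ : Wt) (c : ℂ) (f : A) : d.Φ γ (c • f) = C (iota c) * d.Φ γ f := by
  ext n; simp [coeff_Φ, iota, smul_eq_C_mul]

omit [IsDomain A] in
lemma Φ_one : d.Φ 0 1 = 1 := by
  ext n
  rw [coeff_Φ, map_one, Polynomial.coeff_one, Polynomial.coeff_one]
  split_ifs with h
  · subst h; simp
  · simp

omit [IsDomain A] in
lemma Φ_deriv (γ : Wt) (f : A) : derivative (d.Φ γ f) = d.Φ (γ + d.ε) (d.D f) := by
  ext n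
  rw [coeff_derivative, coeff_Φ, coeff_Φ, ← d.hD, coeff_derivative, map_mul, succ_nsmul',
    ← add_assoc]
  have h : d.j ((n : A) + 1) = single 0 ((n : ℂ[X]) + 1) := by
    rw [map_add, map_natCast, map_one, natCast_def, one_def, single_add]
  rw [h, coeff_mul_single_zero, map_mul]
  simp

lemma Φ_mul {f g : A} {α β : Wt} (hf : Le (d.j f) α) (hg : Le (d.j g) β) :
    d.Φ (α + β) (f * g) = d.Φ α f * d.Φ β g := by
  ext n
  rw [coeff_Φ, map_mul, Polynomial.coeff_mul, Polynomial.coeff_mul, map_sum,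
    AddMonoidAlgebra.coeff_sum, Finsupp.finsetSum_apply, map_sum]
  refine Finset.sum_congr rfl fun c hc => ?_
  rw [coeff_Φ, coeff_Φ, ← map_mul, map_mul d.j, ← (d.leE c.1 hf).coeff_mul (d.leE c.2 hg),
    ← Finset.HasAntidiagonal.mem_antidiagonal.mp hc, add_nsmul]
  congr 2
  abel

lemma Φ_lower {f : A} {α β : Wt} (hf : Le (d.j f) α) (h : α < β) : d.Φ β f = 0 := by
  ext n
  rw [coeff_Φ, d.leE n hf _ (by gcongr)]
  simp

lemma Φ_eq_zero {f : A} {γ : Wt} (hf : Le (d.j f) γ) (h : (d.j f).coeff γ = 0) :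
    d.Φ γ f = 0 := by
  by_cases h0 : d.j f = 0
  · refine d.Φ_lower (α := γ + wm (-1) 0 0) (h0 ▸ Le.zero _) ?_
    rw [Wt.lt_iff]; simp
  · obtain ⟨δ, h1, h2⟩ := exists_top h0
    exact d.Φ_lower h1 (lt_of_le_of_ne (hf.le_of_ne h2) fun h3 => h2 (h3 ▸ h))

lemma deriv_zero {f : A} {γ : Wt} (hf : Le (d.j f) γ) (h : ∀ e : Ex, e.wt ≠ γ + d.ε) :
    derivative (d.Φ γ f) = 0 := by
  rw [Φ_deriv]
  refine d.Φ_eq_zero (d.leD hf) ?_
  by_contra hc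
  obtain ⟨e, he⟩ := d.exists_wt (d.leD hf) hc
  exact h e he

/-- `f` has weight at most `γ`, with flowed top form `q` -/
def PT (f : A) (γ : Wt) (q : LL[X]) : Prop := Le (d.j f) γ ∧ d.Φ γ f = q

variable {d}

lemma PT.mul {f g : A} {α β : Wt} {q r : LL[X]} (hf : d.PT f α q) (hg : d.PT g β r) :
    d.PT (f * g) (α + β) (q * r) :=
  ⟨by rw [map_mul]; exact hf.1.mul hg.1, by rw [d.Φ_mul hf.1 hg.1, hf.2, hg.2]⟩

omit [IsDomain A] in
lemma PT.one : d.PT 1 0 1 := ⟨by rw [map_one]; exact Top.one.1, d.Φ_one⟩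

lemma PT.pow {f : A} {α : Wt} {q : LL[X]} (hf : d.PT f α q) (n : ℕ) :
    d.PT (f ^ n) (n • α) (q ^ n) := by
  induction n with
  | zero => simpa using PT.one
  | succ n ih => rw [pow_succ, pow_succ, succ_nsmul]; exact ih.mul hf

omit [IsDomain A] in
lemma PT.add {f g : A} {α : Wt} {q r : LL[X]} (hf : d.PT f α q) (hg : d.PT g α r) :
    d.PT (f + g) α (q + r) :=
  ⟨by rw [map_add]; exact hf.1.add hg.1, by rw [d.Φ_add, hf.2, hg.2]⟩

omit [IsDomain A] in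
lemma PT.neg {f : A} {α : Wt} {q : LL[X]} (hf : d.PT f α q) : d.PT (-f) α (-q) :=
  ⟨by rw [map_neg]; exact hf.1.neg, by rw [d.Φ_neg, hf.2]⟩

lemma PT.lower {f : A} {α β : Wt} {q : LL[X]} (hf : d.PT f α q) (h : α < β) : d.PT f β 0 :=
  ⟨hf.1.mono h.le, d.Φ_lower hf.1 h⟩

omit [IsDomain A] in
lemma PT.congr {f g : A} {α β : Wt} {q r : LL[X]} (hf : d.PT f α q) (h0 : f = g) (h1 : α = β)
    (h2 : q = r) : d.PT g β r := by
  subst h0 h1 h2; exact hf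

omit [IsDomain A] in
lemma PT.unique {f : A} {α : Wt} {q r : LL[X]} (hf : d.PT f α q) (hg : d.PT f α r) : q = r :=
  hf.2.symm.trans hg.2

variable (d)

noncomputable def P' := d.Φ (wm (-1) 0 0) d.p
noncomputable def U' := d.Φ (wm 0 1 0) d.u
noncomputable def X' := d.Φ (wm 0 0 1) d.x
noncomputable def Y' := d.Φ (wm 0 1 1) d.y
noncomputable def Z' := d.Φ (wm 0 2 1) d.z
noncomputable def N0 := d.Φ (wm 1 2 2) d.V0
noncomputable def N1 := d.Φ (wm 1 3 2) d.V1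
noncomputable def N2 := d.Φ (wm 1 4 2) d.V2

section
omit [IsDomain A]
lemma pt_p : d.PT d.p (wm (-1) 0 0) d.P' := ⟨d.top_p.1, rfl⟩
lemma pt_u : d.PT d.u (wm 0 1 0) d.U' := ⟨d.top_u.1, rfl⟩
lemma pt_x : d.PT d.x (wm 0 0 1) d.X' := ⟨d.top_x.1, rfl⟩
lemma pt_y : d.PT d.y (wm 0 1 1) d.Y' := ⟨d.top_y.1, rfl⟩
lemma pt_z : d.PT d.z (wm 0 2 1) d.Z' := ⟨d.top_z.1, rfl⟩
lemma pt_0 : d.PT d.V0 (wm 1 2 2) d.N0 := ⟨d.top_V0.1, rfl⟩
lemma pt_1 : d.PT d.V1 (wm 1 3 2) d.N1 := ⟨d.top_V1.1, rfl⟩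
lemma pt_2 : d.PT d.V2 (wm 1 4 2) d.N2 := ⟨d.top_V2.1, rfl⟩

lemma Φ_ne {f : A} {γ : Wt} (h : (d.j f).coeff γ ≠ 0) : d.Φ γ f ≠ 0 := by
  intro h0
  have := d.Φ_coeff_zero γ f
  rw [h0, Polynomial.coeff_zero] at this
  exact alg_ne h this.symm

lemma P'_ne : d.P' ≠ 0 := d.Φ_ne (by rw [d.top_p.2]; exact one_ne_zero)
lemma U'_ne : d.U' ≠ 0 := d.Φ_ne (by rw [d.top_u.2]; exact X_ne_zero)
lemma X'_ne : d.X' ≠ 0 := d.Φ_ne (by rw [d.top_x.2]; exact one_ne_zero)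
lemma Y'_ne : d.Y' ≠ 0 := d.Φ_ne (by rw [d.top_y.2]; exact one_ne_zero)
lemma N0_ne : d.N0 ≠ 0 := d.Φ_ne (by
  rw [d.top_V0.2]
  intro h
  have := congrArg (fun q : ℂ[X] => q.coeff 0) h
  simp at this)
end

lemma R1 : d.X' * d.Z' = d.Y' ^ 2 := by
  have t1 : d.PT (d.y ^ 2) (wm 0 2 2) (d.Y' ^ 2) := (d.pt_y.pow 2).congr rfl (by decide) rfl
  have t2 := d.pt_y.lower (β := wm 0 2 2) (by decide)
  have t3 := (d.pt_p.mul d.pt_u).lower (β := wm 0 2 2) (by decide)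
  have t4 := ((t1.add t2).add t3.neg).congr (g := d.x * d.z) (by rw [d.r1]; ring) rfl rfl
  have t5 : d.PT (d.x * d.z) (wm 0 2 2) (d.X' * d.Z') :=
    (d.pt_x.mul d.pt_z).congr rfl (by decide) rfl
  simpa using t5.unique t4

lemma R7 : d.P' * d.N0 + d.Y' ^ 2 - d.X' ^ 2 * d.U' ^ 2 = 0 := by
  have t1 : d.PT (d.y ^ 2) (wm 0 2 2) (d.Y' ^ 2) := (d.pt_y.pow 2).congr rfl (by decide) rfl
  have t2 := (d.pt_x.pow 3).lower (β := wm 0 2 2) (by decide)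
  have t3 : d.PT (d.x ^ 2 * d.u ^ 2) (wm 0 2 2) (d.X' ^ 2 * d.U' ^ 2) :=
    ((d.pt_x.pow 2).mul (d.pt_u.pow 2)).congr rfl (by decide) rfl
  have t4 := ((t2.add t1.neg).add t3).congr (g := d.p * d.V0)
    (by rw [d.r7]; ring) rfl rfl
  have t5 : d.PT (d.p * d.V0) (wm 0 2 2) (d.P' * d.N0) :=
    (d.pt_p.mul d.pt_0).congr rfl (by decide) rfl
  linear_combination t5.unique t4

lemma pt_y1 : d.PT (d.y + 1) (wm 0 1 1) d.Y' := by
  simpa using d.pt_y.add (PT.one.lower (by decide))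

lemma R8 : d.P' * d.N1 + d.Y' * d.Z' - d.X' * d.Y' * d.U' ^ 2 = 0 := by
  have t1 := ((d.pt_x.pow 2).mul d.pt_y1).lower (β := wm 0 3 2) (by decide)
  have t2 : d.PT (d.y * d.z) (wm 0 3 2) (d.Y' * d.Z') :=
    (d.pt_y.mul d.pt_z).congr rfl (by decide) rfl
  have t3 : d.PT (d.x * (d.y + 1) * d.u ^ 2) (wm 0 3 2) (d.X' * d.Y' * d.U' ^ 2) :=
    ((d.pt_x.mul d.pt_y1).mul (d.pt_u.pow 2)).congr rfl (by decide) rfl
  have t4 := ((t1.add t2.neg).add t3).congr (g := d.p * d.V1)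
    (by rw [d.r8]; ring) rfl rfl
  have t5 : d.PT (d.p * d.V1) (wm 0 3 2) (d.P' * d.N1) :=
    (d.pt_p.mul d.pt_1).congr rfl (by decide) rfl
  linear_combination t5.unique t4

lemma R9 : d.P' * d.N2 + d.Z' ^ 2 - d.Y' ^ 2 * d.U' ^ 2 = 0 := by
  have t1 := ((d.pt_y1.pow 2).mul d.pt_x).lower (β := wm 0 4 2) (by decide)
  have t2 : d.PT (d.z ^ 2) (wm 0 4 2) (d.Z' ^ 2) := (d.pt_z.pow 2).congr rfl (by decide) rfl
  have t3 : d.PT ((d.y + 1) ^ 2 * d.u ^ 2) (wm 0 4 2) (d.Y' ^ 2 * d.U' ^ 2) :=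
    ((d.pt_y1.pow 2).mul (d.pt_u.pow 2)).congr rfl (by decide) rfl
  have t4 := ((t1.add t2.neg).add t3).congr (g := d.p * d.V2)
    (by rw [d.r9]; ring) rfl rfl
  have t5 : d.PT (d.p * d.V2) (wm 0 4 2) (d.P' * d.N2) :=
    (d.pt_p.mul d.pt_2).congr rfl (by decide) rfl
  linear_combination t5.unique t4

lemma Φ_mon (e : Ex) : d.Φ e.wt (d.mon e) = d.P' ^ e.m * d.U' ^ e.n * d.X' ^ e.a0 * d.Y' ^ e.a1 *
    d.Z' ^ e.a2 * d.N0 ^ e.b0 * d.N1 ^ e.b1 * d.N2 ^ e.b2 :=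
  ((((((((d.pt_p.pow _).mul (d.pt_u.pow _)).mul (d.pt_x.pow _)).mul
    (d.pt_y.pow _)).mul (d.pt_z.pow _)).mul (d.pt_0.pow _)).mul (d.pt_1.pow _)).mul
    (d.pt_2.pow _)).2

lemma dvd_Φ {π : LL[X]} {f : A} {γ : Wt} (hf : Le (d.j f) γ)
    (h : ∀ e : Ex, e.wt = γ → π ∣ d.Φ e.wt (d.mon e)) : π ∣ d.Φ γ f := by
  refine d.key_ind (fun f => π ∣ d.Φ γ f) (by simp [Φ_zero]) ?_ ?_ ?_ ?_ hf
  · intro f g h1 h2; rw [Φ_add]; exact h1.add h2
  · intro c f h1; rw [Φ_smul]; exact h1.mul_left _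
  · intro e he; rw [d.Φ_lower (d.top_mon e).1 he]; exact dvd_zero _
  · intro e he; exact he ▸ h e he

end Flow

end Vale.Agent.P295
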