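import Vale.Agent.P295.Basis4

namespace Vale.Agent.P295

open Vale.Agent.P293

open Polynomial AddMonoidAlgebra

def Ex.add (e f : Ex) : Ex :=
  ⟨e.m + f.m, e.n + f.n, e.a0 + f.a0, e.a1 + f.a1, e.a2 + f.a2, e.b0 + f.b0, e.b1 + f.b1,
    e.b2 + f.b2⟩

lemma Ex.W_add (e f : Ex) : (e.add f).W = e.W + f.W := by
  simp only [Ex.add, Ex.W]; ring

namespace Data

variable {A : Type*} [CommRing A] [Algebra ℂ A] (d : Data A)

lemma mon_add (e f : Ex) : d.mon (e.add f) = d.mon e * d.mon f := by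
  simp only [mon, Ex.add]; ring

lemma span_mon : Submodule.span ℂ (Set.range d.mon) = ⊤ := by
  rw [eq_top_iff]
  intro f _
  have hf : f ∈ Algebra.adjoin ℂ {d.p, d.u, d.x, d.y, d.z, d.V0, d.V1, d.V2} := by
    rw [d.hgen]; trivial
  induction hf using Algebra.adjoin_induction with
  | mem g hg =>
    apply Submodule.subset_span
    simp only [Set.mem_insert_iff, Set.mem_singleton_iff] at hg
    rcases hg with rfl | rfl | rfl | rfl | rfl | rfl | rfl | rfl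
    · exact ⟨⟨1, 0, 0, 0, 0, 0, 0, 0⟩, by simp [mon]⟩
    · exact ⟨⟨0, 1, 0, 0, 0, 0, 0, 0⟩, by simp [mon]⟩
    · exact ⟨⟨0, 0, 1, 0, 0, 0, 0, 0⟩, by simp [mon]⟩
    · exact ⟨⟨0, 0, 0, 1, 0, 0, 0, 0⟩, by simp [mon]⟩
    · exact ⟨⟨0, 0, 0, 0, 1, 0, 0, 0⟩, by simp [mon]⟩
    · exact ⟨⟨0, 0, 0, 0, 0, 1, 0, 0⟩, by simp [mon]⟩
    · exact ⟨⟨0, 0, 0, 0, 0, 0, 1, 0⟩, by simp [mon]⟩
    · exact ⟨⟨0, 0, 0, 0, 0, 0, 0, 1⟩, by simp [mon]⟩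
  | algebraMap r =>
    rw [Algebra.algebraMap_eq_smul_one]
    exact Submodule.smul_mem _ _ (Submodule.subset_span ⟨⟨0, 0, 0, 0, 0, 0, 0, 0⟩, by simp [mon]⟩)
  | add g h _ _ ihg ihh => exact Submodule.add_mem _ (ihg trivial) (ihh trivial)
  | mul g h _ _ ihg ihh =>
    have h1 := Submodule.mul_mem_mul (ihg trivial) (ihh trivial)
    rw [Submodule.span_mul_span] at h1
    refine Submodule.span_mono ?_ h1
    rintro _ ⟨_, ⟨e, rfl⟩, _, ⟨f, rfl⟩, rfl⟩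
    exact ⟨e.add f, d.mon_add e f⟩

variable [IsDomain A]

lemma r2 : d.x * d.V1 = (d.y + 1) * d.V0 + d.u * d.y :=
  mul_left_cancel₀ d.p_ne
    (by linear_combination d.x * d.r8 - (d.y + 1) * d.r7 - d.y * d.r1)

lemma r3 : d.x * d.V2 = (d.y + 1) * d.V1 + d.u * d.z :=
  mul_left_cancel₀ d.p_ne
    (by linear_combination d.x * d.r9 - (d.y + 1) * d.r8 - d.z * d.r1)

lemma r4 : d.y * d.V1 = d.z * d.V0 + d.u * (d.x ^ 2 + d.x * d.u ^ 2) :=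
  mul_left_cancel₀ d.p_ne
    (by linear_combination d.y * d.r8 - d.z * d.r7 - d.x * (d.x + d.u ^ 2) * d.r1)

lemma r5 : d.y * d.V2 = d.z * d.V1 + d.u * (d.y + 1) * (d.x + d.u ^ 2) :=
  mul_left_cancel₀ d.p_ne
    (by linear_combination d.y * d.r9 - d.z * d.r8 - (d.y + 1) * (d.x + d.u ^ 2) * d.r1)

lemma r6 : d.V0 * d.V2 = d.V1 ^ 2 - d.u ^ 2 * (d.x + d.u ^ 2) :=
  mul_left_cancel₀ (pow_ne_zero 2 d.p_ne)
    (by
      linear_combination (d.p * d.V2) * d.r7 + (d.x ^ 3 - d.y ^ 2 + d.x ^ 2 * d.u ^ 2) * d.r9 -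
        (d.p * d.V1 + (d.x ^ 2 * (d.y + 1) - d.y * d.z + d.x * (d.y + 1) * d.u ^ 2)) * d.r8 -
        (d.x + d.u ^ 2) * (d.x * d.z - d.y ^ 2 - d.y - d.p * d.u) * d.r1)

lemma mon_mem_std (w : ℕ) : ∀ e : Ex, e.W = w →
    d.mon e ∈ Submodule.span ℂ (d.mon '' {e | e.Std}) := by
  induction w using Nat.strong_induction_on with
  | _ w ih =>
  intro e he
  by_cases hs : e.Std
  · exact Submodule.subset_span ⟨e, hs, rfl⟩
  set S := Submodule.span ℂ (d.mon '' {e | e.Std})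
  have step : ∀ e0 δ0 : Ex, e = e0.add δ0 → ∀ δ : Ex, δ.W < δ0.W → d.mon e0 * d.mon δ ∈ S := by
    intro e0 δ0 h0 δ hδ
    rw [← d.mon_add]
    refine ih _ ?_ _ rfl
    rw [← he, h0, Ex.W_add, Ex.W_add]; omega
  obtain ⟨m, n, a0, a1, a2, b0, b1, b2⟩ := e
  simp only [Ex.Std, not_and_or, not_or] at hs
  rcases hs with ⟨h1, h2⟩ | ⟨h1, h2⟩ | ⟨h1, h2⟩ | ⟨h1, h2⟩ | ⟨h1, h2⟩ | ⟨h1, h2⟩ | ⟨h1, h2⟩
  · obtain ⟨a0, rfl⟩ := Nat.exists_eq_add_one_of_ne_zero h1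
    obtain ⟨a2, rfl⟩ := Nat.exists_eq_add_one_of_ne_zero h2
    have st := step ⟨m, n, a0, a1, a2, b0, b1, b2⟩ ⟨0, 0, 1, 0, 1, 0, 0, 0⟩ rfl
    change d.mon (Ex.add ⟨m, n, a0, a1, a2, b0, b1, b2⟩ ⟨0, 0, 1, 0, 1, 0, 0, 0⟩) ∈ S
    rw [d.mon_add]
    generalize d.mon ⟨m, n, a0, a1, a2, b0, b1, b2⟩ = M at st ⊢
    have := S.sub_mem (S.add_mem (st ⟨0, 0, 0, 2, 0, 0, 0, 0⟩ (by decide))
      (st ⟨0, 0, 0, 1, 0, 0, 0, 0⟩ (by decide))) (st ⟨1, 1, 0, 0, 0, 0, 0, 0⟩ (by decide))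
    convert this using 1
    simp only [mon]; linear_combination M * d.r1
  · obtain ⟨a0, rfl⟩ := Nat.exists_eq_add_one_of_ne_zero h1
    obtain ⟨b1, rfl⟩ := Nat.exists_eq_add_one_of_ne_zero h2
    have st := step ⟨m, n, a0, a1, a2, b0, b1, b2⟩ ⟨0, 0, 1, 0, 0, 0, 1, 0⟩ rfl
    change d.mon (Ex.add ⟨m, n, a0, a1, a2, b0, b1, b2⟩ ⟨0, 0, 1, 0, 0, 0, 1, 0⟩) ∈ S
    rw [d.mon_add]
    generalize d.mon ⟨m, n, a0, a1, a2, b0, b1, b2⟩ = M at st ⊢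
    have := S.add_mem (S.add_mem (st ⟨0, 0, 0, 1, 0, 1, 0, 0⟩ (by decide))
      (st ⟨0, 0, 0, 0, 0, 1, 0, 0⟩ (by decide))) (st ⟨0, 1, 0, 1, 0, 0, 0, 0⟩ (by decide))
    convert this using 1
    simp only [mon]; linear_combination M * d.r2
  · obtain ⟨a0, rfl⟩ := Nat.exists_eq_add_one_of_ne_zero h1
    obtain ⟨b2, rfl⟩ := Nat.exists_eq_add_one_of_ne_zero h2
    have st := step ⟨m, n, a0, a1, a2, b0, b1, b2⟩ ⟨0, 0, 1, 0, 0, 0, 0, 1⟩ rfl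
    change d.mon (Ex.add ⟨m, n, a0, a1, a2, b0, b1, b2⟩ ⟨0, 0, 1, 0, 0, 0, 0, 1⟩) ∈ S
    rw [d.mon_add]
    generalize d.mon ⟨m, n, a0, a1, a2, b0, b1, b2⟩ = M at st ⊢
    have := S.add_mem (S.add_mem (st ⟨0, 0, 0, 1, 0, 0, 1, 0⟩ (by decide))
      (st ⟨0, 0, 0, 0, 0, 0, 1, 0⟩ (by decide))) (st ⟨0, 1, 0, 0, 1, 0, 0, 0⟩ (by decide))
    convert this using 1
    simp only [mon]; linear_combination M * d.r3
  · obtain ⟨a1, rfl⟩ := Nat.exists_eq_add_one_of_ne_zero h1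
    obtain ⟨b1, rfl⟩ := Nat.exists_eq_add_one_of_ne_zero h2
    have st := step ⟨m, n, a0, a1, a2, b0, b1, b2⟩ ⟨0, 0, 0, 1, 0, 0, 1, 0⟩ rfl
    change d.mon (Ex.add ⟨m, n, a0, a1, a2, b0, b1, b2⟩ ⟨0, 0, 0, 1, 0, 0, 1, 0⟩) ∈ S
    rw [d.mon_add]
    generalize d.mon ⟨m, n, a0, a1, a2, b0, b1, b2⟩ = M at st ⊢
    have := S.add_mem (S.add_mem (st ⟨0, 0, 0, 0, 1, 1, 0, 0⟩ (by decide))
      (st ⟨0, 1, 2, 0, 0, 0, 0, 0⟩ (by decide))) (st ⟨0, 3, 1, 0, 0, 0, 0, 0⟩ (by decide))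
    convert this using 1
    simp only [mon]; linear_combination M * d.r4
  · obtain ⟨a1, rfl⟩ := Nat.exists_eq_add_one_of_ne_zero h1
    obtain ⟨b2, rfl⟩ := Nat.exists_eq_add_one_of_ne_zero h2
    have st := step ⟨m, n, a0, a1, a2, b0, b1, b2⟩ ⟨0, 0, 0, 1, 0, 0, 0, 1⟩ rfl
    change d.mon (Ex.add ⟨m, n, a0, a1, a2, b0, b1, b2⟩ ⟨0, 0, 0, 1, 0, 0, 0, 1⟩) ∈ S
    rw [d.mon_add]
    generalize d.mon ⟨m, n, a0, a1, a2, b0, b1, b2⟩ = M at st ⊢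
    have := S.add_mem (S.add_mem (S.add_mem (S.add_mem (st ⟨0, 0, 0, 0, 1, 0, 1, 0⟩ (by decide))
      (st ⟨0, 1, 1, 1, 0, 0, 0, 0⟩ (by decide))) (st ⟨0, 1, 1, 0, 0, 0, 0, 0⟩ (by decide)))
      (st ⟨0, 3, 0, 1, 0, 0, 0, 0⟩ (by decide))) (st ⟨0, 3, 0, 0, 0, 0, 0, 0⟩ (by decide))
    convert this using 1
    simp only [mon]; linear_combination M * d.r5
  · obtain ⟨b0, rfl⟩ := Nat.exists_eq_add_one_of_ne_zero h1
    obtain ⟨b2, rfl⟩ := Nat.exists_eq_add_one_of_ne_zero h2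
    have st := step ⟨m, n, a0, a1, a2, b0, b1, b2⟩ ⟨0, 0, 0, 0, 0, 1, 0, 1⟩ rfl
    change d.mon (Ex.add ⟨m, n, a0, a1, a2, b0, b1, b2⟩ ⟨0, 0, 0, 0, 0, 1, 0, 1⟩) ∈ S
    rw [d.mon_add]
    generalize d.mon ⟨m, n, a0, a1, a2, b0, b1, b2⟩ = M at st ⊢
    have := S.sub_mem (S.sub_mem (st ⟨0, 0, 0, 0, 0, 0, 2, 0⟩ (by decide))
      (st ⟨0, 2, 1, 0, 0, 0, 0, 0⟩ (by decide))) (st ⟨0, 4, 0, 0, 0, 0, 0, 0⟩ (by decide))
    convert this using 1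
    simp only [mon]; linear_combination M * d.r6
  · obtain ⟨m, rfl⟩ : ∃ m', m = m' + 1 := ⟨m - 1, by omega⟩
    by_cases hb0 : b0 = 0
    · by_cases hb1 : b1 = 0
      · obtain ⟨b2, rfl⟩ : ∃ b, b2 = b + 1 := ⟨b2 - 1, by omega⟩
        have st := step ⟨m, n, a0, a1, a2, b0, b1, b2⟩ ⟨1, 0, 0, 0, 0, 0, 0, 1⟩ rfl
        change d.mon (Ex.add ⟨m, n, a0, a1, a2, b0, b1, b2⟩ ⟨1, 0, 0, 0, 0, 0, 0, 1⟩) ∈ S
        rw [d.mon_add]
        generalize d.mon ⟨m, n, a0, a1, a2, b0, b1, b2⟩ = M at st ⊢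
        have t1 := st ⟨0, 0, 1, 2, 0, 0, 0, 0⟩ (by decide)
        have t2 := st ⟨0, 0, 1, 1, 0, 0, 0, 0⟩ (by decide)
        have t3 := st ⟨0, 0, 1, 0, 0, 0, 0, 0⟩ (by decide)
        have t4 := st ⟨0, 2, 0, 2, 0, 0, 0, 0⟩ (by decide)
        have t5 := st ⟨0, 2, 0, 1, 0, 0, 0, 0⟩ (by decide)
        have t6 := st ⟨0, 2, 0, 0, 0, 0, 0, 0⟩ (by decide)
        have t7 := st ⟨0, 0, 0, 0, 2, 0, 0, 0⟩ (by decide)
        have := S.sub_mem (S.add_mem (S.add_mem (S.add_mem (S.add_mem t1 t2) t2) t3)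
          (S.add_mem (S.add_mem (S.add_mem t4 t5) t5) t6)) t7
        convert this using 1
        simp only [mon]; linear_combination M * d.r9
      · obtain ⟨b1, rfl⟩ := Nat.exists_eq_add_one_of_ne_zero hb1
        have st := step ⟨m, n, a0, a1, a2, b0, b1, b2⟩ ⟨1, 0, 0, 0, 0, 0, 1, 0⟩ rfl
        change d.mon (Ex.add ⟨m, n, a0, a1, a2, b0, b1, b2⟩ ⟨1, 0, 0, 0, 0, 0, 1, 0⟩) ∈ S
        rw [d.mon_add]
        generalize d.mon ⟨m, n, a0, a1, a2, b0, b1, b2⟩ = M at st ⊢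
        have t1 := st ⟨0, 0, 2, 1, 0, 0, 0, 0⟩ (by decide)
        have t2 := st ⟨0, 0, 2, 0, 0, 0, 0, 0⟩ (by decide)
        have t3 := st ⟨0, 0, 0, 1, 1, 0, 0, 0⟩ (by decide)
        have t4 := st ⟨0, 2, 1, 1, 0, 0, 0, 0⟩ (by decide)
        have t5 := st ⟨0, 2, 1, 0, 0, 0, 0, 0⟩ (by decide)
        have := S.add_mem (S.add_mem (S.sub_mem (S.add_mem t1 t2) t3) t4) t5
        convert this using 1
        simp only [mon]; linear_combination M * d.r8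
    · obtain ⟨b0, rfl⟩ := Nat.exists_eq_add_one_of_ne_zero hb0
      have st := step ⟨m, n, a0, a1, a2, b0, b1, b2⟩ ⟨1, 0, 0, 0, 0, 1, 0, 0⟩ rfl
      change d.mon (Ex.add ⟨m, n, a0, a1, a2, b0, b1, b2⟩ ⟨1, 0, 0, 0, 0, 1, 0, 0⟩) ∈ S
      rw [d.mon_add]
      generalize d.mon ⟨m, n, a0, a1, a2, b0, b1, b2⟩ = M at st ⊢
      have t1 := st ⟨0, 0, 3, 0, 0, 0, 0, 0⟩ (by decide)
      have t2 := st ⟨0, 0, 0, 2, 0, 0, 0, 0⟩ (by decide)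
      have t3 := st ⟨0, 2, 2, 0, 0, 0, 0, 0⟩ (by decide)
      have := S.add_mem (S.sub_mem t1 t2) t3
      convert this using 1
      simp only [mon]; linear_combination M * d.r7

lemma span_std : Submodule.span ℂ (d.mon '' {e | e.Std}) = ⊤ := by
  rw [eq_top_iff, ← d.span_mon, Submodule.span_le]
  rintro _ ⟨e, rfl⟩
  exact d.mon_mem_std _ e rfl

theorem key {f : A} {γ : Wt} (hf : Le (d.j f) γ) :
    f ∈ Submodule.span ℂ (d.mon '' {e | e.wt ≤ γ}) := by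
  classical
  have h1 : f ∈ Submodule.span ℂ (d.mon '' {e | e.Std}) := by rw [d.span_std]; trivial
  rw [Finsupp.mem_span_image_iff_linearCombination] at h1 ⊢
  obtain ⟨l, hl, rfl⟩ := h1
  refine ⟨l, ?_, rfl⟩
  rw [Finsupp.mem_supported] at hl ⊢
  intro e1 he1
  by_contra hc
  obtain ⟨e0, he0, hmax⟩ := l.support.exists_max_image Ex.wt ⟨e1, he1⟩
  have hlt : γ < e0.wt := lt_of_lt_of_le (not_le.mp hc) (hmax e1 he1)
  have h0 := hf _ hlt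
  rw [Finsupp.linearCombination_apply, Finsupp.sum, map_sum, AddMonoidAlgebra.coeff_sum,
    Finsupp.finsetSum_apply] at h0
  have h2 : ∀ e ∈ l.support, (d.j (l e • d.mon e)).coeff e0.wt =
      (if e.wt = e0.wt then C (l e) * X ^ e.N else 0) * (X ^ 2 - 1) ^ e0.k := by
    intro e he
    rw [map_smul, coeff_smul_apply]
    split_ifs with h
    · rw [← h, (d.top_mon e).2, Ex.tc, Ex.Std.k_eq (hl he) (hl he0) h, smul_eq_C_mul, mul_assoc]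
    · rw [(d.top_mon e).1 _ (lt_of_le_of_ne (hmax e he) h)]; simp
  rw [Finset.sum_congr rfl h2, ← Finset.sum_mul] at h0
  have h3 : (X ^ 2 - 1 : ℂ[X]) ^ e0.k ≠ 0 := by
    apply pow_ne_zero
    rw [← C_1]
    exact X_pow_sub_C_ne_zero two_pos 1
  have h4 := congrArg (fun q : ℂ[X] => q.coeff e0.N) ((mul_eq_zero.mp h0).resolve_right h3)
  simp only [finsetSum_coeff, Polynomial.coeff_zero] at h4
  rw [Finset.sum_eq_single e0] at h4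
  · simp at h4
    exact (Finsupp.mem_support_iff.mp he0) h4
  · intro e he hne
    split_ifs with h
    · rw [coeff_C_mul, coeff_X_pow, if_neg, mul_zero]
      intro hN
      exact hne (Ex.Std.eq (hl he) (hl he0) h hN.symm)
    · simp
  · intro h; exact absurd he0 h

end Data

end Vale.Agent.P295
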